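import Vale.Agent.P154.Window.Three.Gap
import Vale.Agent.P154.Window.Four.Poisson408
import Vale.Agent.P154.Window.Four.Poisson414
import Vale.Agent.P154.Window.Four.Poisson420

/-!
No reconstruction for every Poisson mean up to `21/5` at or below `d l² = 1`, negative parameters.
-/

namespace Vale.Agent.P154

namespace Window

/-- A stronger reference parameter on an interval of means. -/
lemma lower_param {d d0 c l : ℝ} (hd : d0 ≤ d) (hc : 0 ≤ c) (hc1 : 1 ≤ d0 * c ^ 2)
    (hdl : d * l ^ 2 ≤ 1) : -c ≤ l := by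
  by_contra h
  rw [not_le] at h
  have h1 : c ^ 2 < l ^ 2 := by nlinarith
  have h2 : (d0 : ℝ) * l ^ 2 ≤ d * l ^ 2 := mul_le_mul_of_nonneg_right hd (sq_nonneg l)
  have hd0 : 0 < d0 := by
    by_contra g
    nlinarith [not_lt.mp g, sq_nonneg c]
  have h3 := mul_lt_mul_of_pos_left h1 hd0
  linarith

/-- Poisson means up to `21/5`. -/
theorem nonrec_poisson_gap {d l : ℝ} (hd : 0 < d) (hd1 : d ≤ 21 / 5) (h0 : -(1 / 2) ≤ l)
    (h1 : l ≤ 0) (hdl : d * l ^ 2 ≤ 1) : Nonreconstruction (poissonLaw d) l := by
  rcases le_or_gt d (102 / 25) with g | g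
  · exact nonrec_poisson_of_reach hd g le_rfl (by norm_num) h0 h1 hdl poisson_reach_408
  rcases le_or_gt d (207 / 50) with g1 | g1
  · exact nonrec_poisson_of_reach hd g1 (by norm_num) (by norm_num)
      (lower_param g.le (by norm_num) (by norm_num) hdl) h1 hdl poisson_reach_414
  · exact nonrec_poisson_of_reach hd hd1 (by norm_num) (by norm_num)
      (lower_param g1.le (by norm_num) (by norm_num) hdl) h1 hdl poisson_reach_420

end Window

end Vale.Agent.P154
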