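import Vale.Agent.P154.Window.Three.Step

/-!
Levels, drops and limits from the scalar inequality with three reference lengths.
-/

namespace Vale.Agent.P154

namespace Window

variable {η : Type} {M : Lik η} {κ κ' μ1 μ2 ν d s : ℝ}

/-- The inequality of one level in the general form. -/
theorem level3_of_scal {p : ℕ → ℝ} {ε : ℝ} (hp : Law p d) (hd : 0 < d) (hM : Ok M) (hsw : Sw M)
    (h1 : 0 < μ1) (h12 : μ1 < μ2) (h2ν : μ2 < ν) (hν : ν ≤ 1 / 2) (hs : s ≤ ν ^ 2)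
    (hds : d * s ≤ 1)
    (hb : ∀ y, quad rc (M y 0) (M y 1) (M y 2) ≤ s * tot (M y 0) (M y 1) (M y 2) ^ 2)
    (hc : CC κ κ') (k0 : 0 ≤ κ) (k1 : κ ≤ 12 / 25) (k0' : 0 ≤ κ') (k1' : κ' ≤ 12 / 25)
    (T : ℝ → ℝ → ℝ → ℝ → ℝ → ℝ → ℝ)
    (hT : (∑' N, p N * mo (mPhi κ)
        (power (mixNode (wt' (tent3 μ1 μ2 ν M)) ![0, μ1, μ2, ν]) N))
      = T μ1 μ2 ν (d * wt' (tent3 μ1 μ2 ν M) 1) (d * wt' (tent3 μ1 μ2 ν M) 2)
          (d * wt' (tent3 μ1 μ2 ν M) 3))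
    (hgap : d * (1 - ∑' N, p N * mo mA
        (power (mixNode (wt' (tent3 μ1 μ2 ν M)) ![0, μ1, μ2, ν]) N)) ^ 2
      ≤ ∑' N, p N * wgap (mixNode (wt' (tent3 μ1 μ2 ν M)) ![0, μ1, μ2, ν]) N)
    (hscal : ∀ M1 M2 b u1 u2 Qs c : ℝ, 0 ≤ b → 0 ≤ u1 → u1 ≤ M1 → 0 ≤ u2 → u2 ≤ M2 →
      μ1 ^ 2 * M1 + μ2 ^ 2 * M2 + ν ^ 2 * b = d * mo mA M → M1 + M2 + b ≤ d →
      Lin3 d μ1 μ2 ν M1 M2 b u1 u2 Qs → Qs ≤ μ1 ^ 4 * M1 + μ2 ^ 4 * M2 + ν ^ 4 * b →
      cX (d * mo mA M) ≤ c → c ≤ 1 →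
      T μ1 μ2 ν M1 M2 b ≤ d * mo mA M
        + κ' * (c * (μ1 ^ 4 * M1 + μ2 ^ 4 * M2 + ν ^ 4 * b))
        + (κ * d - κ' * c) * Qs - ε * (d * mo mA M) ^ 2)
    (hε : 0 ≤ ε) :
    mo (mPhi κ) (mix p M)
      ≤ d * mo mA M + κ * d ^ 2 * mo mQ M - ε * (d * mo mA M) ^ 2 := by
  have hbν : ∀ y, quad rc (M y 0) (M y 1) (M y 2) ≤ ν ^ 2 * tot (M y 0) (M y 1) (M y 2) ^ 2 :=
    fun y => le_trans (hb y) (mul_le_mul_of_nonneg_right hs (sq_nonneg _))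
  have hQ := ok_Q3 hM h1 h12 h2ν hν hbν
  set Q := mixNode (wt' (tent3 μ1 μ2 ν M)) ![0, μ1, μ2, ν] with hQdef
  set t := ∑' N, p N * mo mA (power Q N) with htdef
  have sA := summable_law_mo hp hQ dom_mA
  have t0 : 0 ≤ t := tsum_nonneg fun N => mul_nonneg (hp.nonneg N)
    ((power_ok Q hQ N).mo_nonneg fun _ _ _ => mA_nonneg)
  have t1 : t ≤ 1 := le_trans (sA.tsum_le_tsum (fun N => by
    have := mul_le_mul_of_nonneg_left (power_ok Q hQ N).mA_le_one (hp.nonneg N)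
    linarith) hp.total.summable) (le_of_eq hp.total.tsum_eq)
  obtain ⟨M1, M2, b, u1, u2, e1, e2, eb, b0, p0, p1, q0, q1, hsum, hX, hlin, hQS, hlev⟩ :=
    level_bound3 hp hd hM hsw h1 h12 h2ν hν hbν hc k0 k1 k0' hgap
  rw [hT, ← e1, ← e2, ← eb] at hlev
  rw [← e1, ← e2, ← eb] at hT
  have hnQ : 0 ≤ mo mQ M := hM.mo_nonneg fun _ _ _ => mQ_nonneg
  have hnA : 0 ≤ mo mA M := hM.mo_nonneg fun _ _ _ => mA_nonneg
  have hQA : mo mQ M ≤ s * mo mA M := by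
    have key := hasSum_le (fun y => ?_) (hM.summable_mom dom_mQ).hasSum
      ((hM.summable_mom dom_mA).hasSum.mul_left s)
    · rw [mo, mo]; linarith
    · simp only [row, mA, mQ]
      have h0 := tot_nonneg (hM.nonneg y 0) (hM.nonneg y 1) (hM.nonneg y 2)
      rcases eq_or_lt_of_le h0 with h | h
      · rw [← h]; simp
      · have hq : 0 ≤ quad rc (M y 0) (M y 1) (M y 2) := quad_nonneg
        rw [div_le_iff₀ (by positivity)]
        have := mul_le_mul_of_nonneg_left (hb y) hq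
        calc quad rc (M y 0) (M y 1) (M y 2) ^ 2
            ≤ quad rc (M y 0) (M y 1) (M y 2) * (s * tot (M y 0) (M y 1) (M y 2) ^ 2) := by linarith
          _ = s * (quad rc (M y 0) (M y 1) (M y 2) / tot (M y 0) (M y 1) (M y 2))
              * tot (M y 0) (M y 1) (M y 2) ^ 3 := by field_simp
  have ht : t ≤ 2 * (d * mo mA M) := by
    have g1 := hscal M1 M2 b u1 u2 (d * mo mQ M) 1 b0 p0 p1 q0 q1 hX hsum hlin hQS
      (le_trans (cX_le (X := d * mo mA M) (t := 0) le_rfl (mul_nonneg two_pos.le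
        (mul_nonneg hd.le hnA)) zero_le_one) (by norm_num)) le_rfl
    have g2 : t ≤ T μ1 μ2 ν M1 M2 b := by
      rw [← hT]
      refine sA.tsum_le_tsum (fun N => mul_le_mul_of_nonneg_left ?_ (hp.nonneg N))
        (summable_law_mo hp hQ (dom_mPhi κ))
      rw [mo_mPhi (power_ok Q hQ N)]
      have := mul_nonneg k0 ((power_ok Q hQ N).mo_nonneg (g := mQ) fun _ _ _ => mQ_nonneg)
      linarith
    have g3 : d * (d * mo mQ M) ≤ d * mo mA M := by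
      have := mul_le_mul_of_nonneg_left hQA (mul_nonneg hd.le hd.le)
      have g4 := mul_le_mul_of_nonneg_right hds (mul_nonneg hd.le hnA)
      linarith
    have g5 : μ1 ^ 4 * M1 + μ2 ^ 4 * M2 + ν ^ 4 * b ≤ ν ^ 2 * (d * mo mA M) := by
      rw [← hX]
      have a1 : μ1 ^ 2 ≤ ν ^ 2 := pow_le_pow_left₀ h1.le (h12.trans h2ν).le 2
      have a2 : μ2 ^ 2 ≤ ν ^ 2 := pow_le_pow_left₀ (h1.trans h12).le h2ν.le 2
      have := mul_le_mul_of_nonneg_left a1 (mul_nonneg (sq_nonneg μ1) (le_trans p0 p1))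
      have := mul_le_mul_of_nonneg_left a2 (mul_nonneg (sq_nonneg μ2) (le_trans q0 q1))
      linarith
    have g6 : ν ^ 2 ≤ 1 / 4 := by nlinarith
    have g7 := mul_le_mul_of_nonneg_left g3 k0
    have g8 := mul_le_mul_of_nonneg_left g5 k0'
    have hXn : 0 ≤ d * mo mA M := mul_nonneg hd.le hnA
    have g9 := mul_le_mul_of_nonneg_right g6 hXn
    have g10 := mul_le_mul_of_nonneg_left g9 k0'
    have g11 := mul_le_mul_of_nonneg_right k1 hXn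
    have g12 := mul_le_mul_of_nonneg_right k1' hXn
    have g13 := mul_nonneg hε (sq_nonneg (d * mo mA M))
    have g14 := mul_nonneg k0' (mul_nonneg hd.le hnQ)
    linarith
  have g1 := hscal M1 M2 b u1 u2 (d * mo mQ M) ((1 - t) ^ 2) b0 p0 p1 q0 q1 hX hsum hlin hQS
    (cX_le t0 ht t1) (pow_le_one₀ (by linarith) (by linarith))
  linarith

/-- One level of a Poisson family. -/
theorem level3_poisson {ε : ℝ} (hd : 0 < d) (hM : Ok M) (hsw : Sw M) (hds : d * s ≤ 1)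
    (hs4 : s ≤ 1 / 4)
    (hb : ∀ y, quad rc (M y 0) (M y 1) (M y 2) ≤ s * tot (M y 0) (M y 1) (M y 2) ^ 2)
    (hc : CC κ κ') (k0 : 0 ≤ κ) (k1 : κ ≤ 12 / 25) (k0' : 0 ≤ κ') (k1' : κ' ≤ 12 / 25)
    (hε : 0 ≤ ε) (hS : Scal3 κ κ' d (poisSum3 κ) ε (d * mo mA M)) :
    mo (mPhi κ) (mix (poissonLaw d) M)
      ≤ d * mo mA M + κ * d ^ 2 * mo mQ M - ε * (d * mo mA M) ^ 2 := by
  obtain ⟨μ1, μ2, ν, h1, h12, h2ν, hν, hdν, hscal⟩ := hS
  have hsν : s ≤ ν ^ 2 := by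
    rcases hdν with h | h
    · exact le_of_mul_le_mul_left (le_trans hds h) hd
    · rw [h]; linarith
  have hbν : ∀ y, quad rc (M y 0) (M y 1) (M y 2) ≤ ν ^ 2 * tot (M y 0) (M y 1) (M y 2) ^ 2 :=
    fun y => le_trans (hb y) (mul_le_mul_of_nonneg_right hsν (sq_nonneg _))
  have hSp := tent3_spread hM h1 h12 h2ν hν hbν
  refine level3_of_scal (poisson_law hd) hd hM hsw h1 h12 h2ν hν hsν hds hb hc k0 k1 k0' k1'
    (poisSum3 κ) ?_ (wgap_poisson hd (ok_Q3 hM h1 h12 h2ν hν hbν)) hscal hε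
  exact (poisson_mix3 hSp.wt_nonneg (hSp.wt_sum hM) h1.le (by linarith) (by linarith)
    (by linarith) (by linarith) hν κ d).tsum_eq

/-- One level of a regular family. -/
theorem level3_regular {ε : ℝ} {n : ℕ} (hn : 0 < n) (hM : Ok M) (hsw : Sw M)
    (hds : (n : ℝ) * s ≤ 1) (hs4 : s ≤ 1 / 4)
    (hb : ∀ y, quad rc (M y 0) (M y 1) (M y 2) ≤ s * tot (M y 0) (M y 1) (M y 2) ^ 2)
    (hc : CC κ κ') (k0 : 0 ≤ κ) (k1 : κ ≤ 12 / 25) (k0' : 0 ≤ κ') (k1' : κ' ≤ 12 / 25)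
    (hε : 0 ≤ ε)
    (hS : Scal3 κ κ' n (fun a a' a'' => binSum3 κ a a' a'' n) ε (n * mo mA M)) :
    mo (mPhi κ) (mix (regularLaw n) M)
      ≤ n * mo mA M + κ * (n : ℝ) ^ 2 * mo mQ M - ε * (n * mo mA M) ^ 2 := by
  obtain ⟨μ1, μ2, ν, h1, h12, h2ν, hν, hdν, hscal⟩ := hS
  have hd : (0 : ℝ) < n := by exact_mod_cast hn
  have hsν : s ≤ ν ^ 2 := by
    rcases hdν with h | h
    · exact le_of_mul_le_mul_left (le_trans hds h) hd
    · rw [h]; linarith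
  have hbν : ∀ y, quad rc (M y 0) (M y 1) (M y 2) ≤ ν ^ 2 * tot (M y 0) (M y 1) (M y 2) ^ 2 :=
    fun y => le_trans (hb y) (mul_le_mul_of_nonneg_right hsν (sq_nonneg _))
  have hSp := tent3_spread hM h1 h12 h2ν hν hbν
  have hQ := ok_Q3 hM h1 h12 h2ν hν hbν
  have one : ∀ (g : ℕ → ℝ), ∑' N, regularLaw n N * g N = g n := fun g => by
    rw [tsum_eq_single n fun N hN => by simp [regularLaw, hN]]
    simp [regularLaw]
  refine level3_of_scal (regular_law n) hd hM hsw h1 h12 h2ν hν hsν hds hb hc k0 k1 k0' k1'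
    (fun a a' a'' => binSum3 κ a a' a'' n) ?_ ?_ hscal hε
  · rw [one, fixed_mix3 hSp.wt_nonneg (hSp.wt_sum hM) h1.le (by linarith) (by linarith)
      (by linarith) (by linarith) hν κ n]
    simp only [binSum3]
    have ws := hSp.wt_sum hM
    rw [Fin.sum_univ_four] at ws
    set w := wt' (tent3 μ1 μ2 ν M)
    have e0 : 1 - ((n : ℝ) * w 1 + n * w 2 + n * w 3) / n = w 0 := by field_simp; linarith
    have e1 : (n : ℝ) * w 1 / n = w 1 := by field_simp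
    have e2 : (n : ℝ) * w 2 / n = w 2 := by field_simp
    have e3 : (n : ℝ) * w 3 / n = w 3 := by field_simp
    rw [e0, e1, e2, e3]
  · rw [one (fun N => mo mA (power (mixNode (wt' (tent3 μ1 μ2 ν M)) ![0, μ1, μ2, ν]) N))]
    exact wgap_regular hQ n

variable {l ε : ℝ}

lemma drop3_poisson (hd : 0 < d) (h0 : -(1 / 2) ≤ l) (h1 : l ≤ 1 / 2) (hdl : d * l ^ 2 ≤ 1)
    (hc : CC κ κ') (k0 : 0 ≤ κ) (k1 : κ ≤ 12 / 25) (k0' : 0 ≤ κ') (k1' : κ' ≤ 12 / 25)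
    (hε : 0 ≤ ε) (n : ℕ)
    (hS : Scal3 κ κ' d (poisSum3 κ) ε (d * l ^ 2 * info (poissonLaw d) l n)) :
    Drop κ ε (poissonLaw d) d l n := by
  have hk := tab_ok (poisson_law hd) h0 (by linarith : l ≤ 1) n
  have hl2 : l ^ 2 ≤ 1 / 4 := by nlinarith
  have e : d * mo mA (shift l (tab (poissonLaw d) l n)) = d * l ^ 2 * info (poissonLaw d) l n := by
    rw [shift_mA, info]; ring
  have h := level3_poisson hd (shift_ok_adm h0 (by linarith : l ≤ 1) hk)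
    (shift_sw l (tab_sw _ l n)) hdl hl2 (fun y => shift_small l hk y) hc k0 k1 k0' k1' hε
    (by rw [e]; exact hS)
  rw [e, shift_mQ] at h
  unfold Drop
  rw [pot, mo_tab_succ]
  refine le_trans h (le_of_eq ?_)
  ring

lemma drop3_regular {m : ℕ} (hm : 0 < m) (h0 : -(1 / 2) ≤ l) (h1 : l ≤ 1 / 2)
    (hdl : (m : ℝ) * l ^ 2 ≤ 1) (hc : CC κ κ') (k0 : 0 ≤ κ) (k1 : κ ≤ 12 / 25) (k0' : 0 ≤ κ')
    (k1' : κ' ≤ 12 / 25) (hε : 0 ≤ ε) (n : ℕ)
    (hS : Scal3 κ κ' m (fun a a' a'' => binSum3 κ a a' a'' m) ε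
      (m * l ^ 2 * info (regularLaw m) l n)) :
    Drop κ ε (regularLaw m) m l n := by
  have hk := tab_ok (regular_law m) h0 (by linarith : l ≤ 1) n
  have hl2 : l ^ 2 ≤ 1 / 4 := by nlinarith
  have e : (m : ℝ) * mo mA (shift l (tab (regularLaw m) l n))
      = m * l ^ 2 * info (regularLaw m) l n := by
    rw [shift_mA, info]; ring
  have h := level3_regular hm (shift_ok_adm h0 (by linarith : l ≤ 1) hk)
    (shift_sw l (tab_sw _ l n)) hdl hl2 (fun y => shift_small l hk y) hc k0 k1 k0' k1' hε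
    (by rw [e]; exact hS)
  rw [e, shift_mQ] at h
  unfold Drop
  rw [pot, mo_tab_succ]
  refine le_trans h (le_of_eq ?_)
  ring

lemma drop3_regular_small {m : ℕ} (hm : m ≤ 4) (h0 : -(1 / 2) ≤ l) (h1 : l ≤ 1 / 2)
    (hc : CC κ κ') (k0 : 0 ≤ κ) (k1 : κ ≤ 12 / 25) (k0' : 0 ≤ κ') (k1' : κ' ≤ 12 / 25)
    (hε : 0 ≤ ε) (n : ℕ)
    (hS : Scal3 κ κ' 4 (fun a a' a'' => binSum3 κ a a' a'' 4) ε
      (4 * l ^ 2 * info (regularLaw m) l n)) :
    Drop κ ε (regularLaw m) 4 l n := by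
  have hk := tab_ok (regular_law m) h0 (by linarith : l ≤ 1) n
  have hl2 : l ^ 2 ≤ 1 / 4 := by nlinarith
  have hMok := shift_ok_adm h0 (by linarith : l ≤ 1) hk
  have e : (4 : ℝ) * mo mA (shift l (tab (regularLaw m) l n))
      = 4 * l ^ 2 * info (regularLaw m) l n := by
    rw [shift_mA, info]; ring
  have h4 : ((4 : ℕ) : ℝ) = 4 := by norm_num
  have hlev := level3_regular (n := 4) (s := l ^ 2) (κ := κ) (κ' := κ') (ε := ε) (by norm_num) hMok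
    (shift_sw l (tab_sw _ l n)) (by rw [h4]; linarith) hl2 (fun y => shift_small l hk y) hc k0 k1
    k0' k1' hε (by rw [h4, e]; exact hS)
  have h := le_trans (mix_regular_mono k0 hm hMok) hlev
  rw [h4, e, shift_mQ] at h
  unfold Drop
  rw [pot, mo_tab_succ]
  refine le_trans h (le_of_eq ?_)
  ring

lemma nodeG_zero (k m1 m2 nu : ℝ) : nodeG k m1 m2 nu 0 0 0 = 0 := by
  simp only [nodeG, mo]
  rw [tsum_eq_single default (fun z hz => absurd (Subsingleton.elim z default) hz)]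
  simp [row, pair, power, mPhi, mA, mQ, quad, tot, dif, rc]

/-- All three masses vanish when the information does. -/
lemma masses_zero {M1 M2 b : ℝ} (h1 : 0 < μ1) (h12 : μ1 < μ2) (h2ν : μ2 < ν) (a1 : 0 ≤ M1)
    (a2 : 0 ≤ M2) (a3 : 0 ≤ b) (hX : μ1 ^ 2 * M1 + μ2 ^ 2 * M2 + ν ^ 2 * b = 0) :
    M1 = 0 ∧ M2 = 0 ∧ b = 0 := by
  have h2 : 0 < μ2 := h1.trans h12
  have h3 : 0 < ν := h2.trans h2ν
  have p1 := mul_nonneg (sq_nonneg μ1) a1
  have p2 := mul_nonneg (sq_nonneg μ2) a2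
  have p3 := mul_nonneg (sq_nonneg ν) a3
  exact ⟨(mul_eq_zero.mp (by linarith : μ1 ^ 2 * M1 = 0)).resolve_left (by positivity),
    (mul_eq_zero.mp (by linarith : μ2 ^ 2 * M2 = 0)).resolve_left (by positivity),
    (mul_eq_zero.mp (by linarith : ν ^ 2 * b = 0)).resolve_left (by positivity)⟩

/-- A scalar value zero needs no certificate. -/
lemma scal3_zero_poisson (κ κ' : ℝ) {d : ℝ} (k0 : 0 ≤ κ * d - κ') (k0' : 0 ≤ κ') (ε : ℝ)
    (μ1 μ2 ν : ℝ) (h1 : 0 < μ1) (h12 : μ1 < μ2) (h2ν : μ2 < ν) (hν : ν ≤ 1 / 2)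
    (hdν : 1 ≤ d * ν ^ 2 ∨ ν = 1 / 2) : Scal3 κ κ' d (poisSum3 κ) ε 0 := by
  refine ⟨μ1, μ2, ν, h1, h12, h2ν, hν, hdν,
    fun M1 M2 b u1 u2 Qs c b0 p0 p1 q0 q1 hX _ hlin _ _ c1 => ?_⟩
  obtain ⟨rfl, rfl, rfl⟩ := masses_zero h1 h12 h2ν (le_trans p0 p1) (le_trans q0 q1) b0 hX
  have hu1 : u1 = 0 := le_antisymm p1 p0
  have hu2 : u2 = 0 := le_antisymm q1 q0
  have hQ := hlin 0 0 0
  simp only [hu1, hu2, mul_zero, zero_mul, add_zero, sub_self, ne_eq,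
    OfNat.ofNat_ne_zero, not_false_eq_true, zero_pow] at hQ
  have e : poisSum3 κ μ1 μ2 ν 0 0 0 = 0 := by
    rw [poisSum3, tsum_eq_single (0, 0, 0)]
    · simp [nodeG_zero]
    · rintro ⟨i, j, k⟩ h
      rcases Nat.eq_zero_or_pos i with rfl | hi
      · rcases Nat.eq_zero_or_pos j with rfl | hj
        · have hk : k ≠ 0 := fun hk => h (by rw [hk])
          simp [zero_pow hk]
        · simp [zero_pow hj.ne']
      · simp [zero_pow hi.ne']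
  rw [e]
  simp only [mul_zero, add_zero, zero_add, ne_eq, OfNat.ofNat_ne_zero, not_false_eq_true,
    zero_pow, sub_zero]
  exact mul_nonneg (by nlinarith) hQ

/-- The same for a fixed number of children. -/
lemma scal3_zero_regular (κ κ' : ℝ) {n : ℕ} (k0 : 0 ≤ κ * n - κ') (k0' : 0 ≤ κ') (ε : ℝ)
    (μ1 μ2 ν : ℝ) (h1 : 0 < μ1) (h12 : μ1 < μ2) (h2ν : μ2 < ν) (hν : ν ≤ 1 / 2)
    (hdν : 1 ≤ (n : ℝ) * ν ^ 2 ∨ ν = 1 / 2) :
    Scal3 κ κ' n (fun a a' a'' => binSum3 κ a a' a'' n) ε 0 := by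
  refine ⟨μ1, μ2, ν, h1, h12, h2ν, hν, hdν,
    fun M1 M2 b u1 u2 Qs c b0 p0 p1 q0 q1 hX _ hlin _ _ c1 => ?_⟩
  obtain ⟨rfl, rfl, rfl⟩ := masses_zero h1 h12 h2ν (le_trans p0 p1) (le_trans q0 q1) b0 hX
  have hu1 : u1 = 0 := le_antisymm p1 p0
  have hu2 : u2 = 0 := le_antisymm q1 q0
  have hQ := hlin 0 0 0
  simp only [hu1, hu2, mul_zero, zero_mul, add_zero, sub_self, ne_eq,
    OfNat.ofNat_ne_zero, not_false_eq_true, zero_pow] at hQ
  have e : binSum3 κ μ1 μ2 ν n 0 0 0 = 0 := by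
    rw [binSum3]
    refine Finset.sum_eq_zero fun y _ => Finset.sum_eq_zero fun z _ =>
      Finset.sum_eq_zero fun u _ => ?_
    simp only [add_zero, zero_div]
    rcases Nat.eq_zero_or_pos z.1 with g1 | g1
    · rcases Nat.eq_zero_or_pos u.1 with g2 | g2
      · rcases Nat.eq_zero_or_pos u.2 with g3 | g3
        · rw [g1, g2, g3, nodeG_zero, mul_zero]
        · simp [zero_pow g3.ne']
      · simp [zero_pow g2.ne']
    · simp [zero_pow g1.ne']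
  simp only [e, mul_zero, add_zero, zero_add, ne_eq, OfNat.ofNat_ne_zero, not_false_eq_true,
    zero_pow, sub_zero]
  exact mul_nonneg (by nlinarith) hQ

/-- The scalar inequalities at every value suffice. -/
theorem nonrec3_poisson_of_scal (hd : 0 < d) (h0 : -(1 / 2) ≤ l) (h1 : l ≤ 1 / 2)
    (hdl : d * l ^ 2 ≤ 1) (hc : CC κ κ') (k0 : 0 ≤ κ) (k1 : κ ≤ 12 / 25) (k0' : 0 ≤ κ')
    (k1' : κ' ≤ 12 / 25) (e0 : 0 < ε) (e1 : ε ≤ 1)
    (hS : ∀ X : ℝ, 0 ≤ X → X ≤ 1 → Scal3 κ κ' d (poisSum3 κ) ε X) :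
    Nonreconstruction (poissonLaw d) l := by
  have hp := poisson_law hd
  have ok := tab_ok hp h0 (by linarith : l ≤ 1)
  refine nonrec_of_drop hp h0 h1 hd.le hdl k0 e0 e1 (pot κ (poissonLaw d) l 0) (n0 := 0) le_rfl
    fun n _ => drop3_poisson hd h0 h1 hdl hc k0 k1 k0' k1' e0.le n (hS _ ?_ ?_)
  · exact mul_nonneg (mul_nonneg hd.le (sq_nonneg l)) ((ok n).mo_nonneg fun _ _ _ => mA_nonneg)
  · exact mul_le_one₀ hdl ((ok n).mo_nonneg fun _ _ _ => mA_nonneg) (ok n).mA_le_one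

/-- The same for regular trees. -/
theorem nonrec3_regular_of_scal {m : ℕ} (hm : 0 < m) (h0 : -(1 / 2) ≤ l) (h1 : l ≤ 1 / 2)
    (hdl : (m : ℝ) * l ^ 2 ≤ 1) (hc : CC κ κ') (k0 : 0 ≤ κ) (k1 : κ ≤ 12 / 25) (k0' : 0 ≤ κ')
    (k1' : κ' ≤ 12 / 25) (e0 : 0 < ε) (e1 : ε ≤ 1)
    (hS : ∀ X : ℝ, 0 ≤ X → X ≤ 1 →
      Scal3 κ κ' m (fun a a' a'' => binSum3 κ a a' a'' m) ε X) :
    Nonreconstruction (regularLaw m) l := by
  have hp := regular_law m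
  have ok := tab_ok hp h0 (by linarith : l ≤ 1)
  refine nonrec_of_drop hp h0 h1 (Nat.cast_nonneg m) hdl k0 e0 e1 (pot κ (regularLaw m) l 0)
    (n0 := 0) le_rfl fun n _ => drop3_regular hm h0 h1 hdl hc k0 k1 k0' k1' e0.le n (hS _ ?_ ?_)
  · exact mul_nonneg (mul_nonneg (Nat.cast_nonneg m) (sq_nonneg l))
      ((ok n).mo_nonneg fun _ _ _ => mA_nonneg)
  · exact mul_le_one₀ hdl ((ok n).mo_nonneg fun _ _ _ => mA_nonneg) (ok n).mA_le_one

end Window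

end Vale.Agent.P154
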