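import Vale.Agent.P154.Window.Three.ScalarTable
import Vale.Agent.P154.Window.ScalarFrac

/-!
The polynomial attached to one cell of the scalar inequality with three reference lengths.
-/

namespace Vale.Agent.P154

namespace Window

/-- The data of one cell `[a / den, b / den]` of the first moment. -/
structure Cell3 where
  /-- the nodes, the weight and the denominator of the table -/
  p : TPar3
  /-- numerator of the second weight -/
  kn : ℕ
  /-- denominator of the second weight -/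
  kd : ℕ
  /-- upper bounds for the potential, scaled -/
  tab : List (List (List ℕ))
  /-- the degree of the exponential polynomial -/
  n : ℕ
  /-- left end, numerator -/
  a : ℕ
  /-- right end, numerator -/
  b : ℕ
  /-- the denominator of the ends -/
  den : ℕ
  /-- the least mean degree, numerator -/
  dn : ℕ
  /-- the least mean degree, denominator -/
  dd : ℕ
  /-- whether the information factor is used -/
  gam : Bool
  /-- multiplier of an upper filter on `X + κ d Qs`, numerator -/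
  mh : ℕ := 0
  /-- multiplier of a lower filter, numerator -/
  ml : ℕ := 0
  /-- common denominator of the multipliers -/
  md : ℕ := 1
  /-- upper filter, numerator -/
  fh : ℕ := 0
  /-- lower filter, numerator -/
  fl : ℕ := 0
  /-- common denominator of the filters -/
  fd : ℕ := 1

namespace Cell3

variable (C : Cell3)

/-- One plus the weight, scaled. -/
def topE : ℕ := C.p.t.E * (C.p.t.cd + C.p.t.cn) / C.p.t.cd

/-- A deficiency `top - T`. -/
def defic (T : ℕ) : RE := .q ((C.topE : ℤ) - (T : ℤ)) C.p.t.E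

/-- The first moment. -/
def xv : RE := .v 0
/-- Mean count at the first node. -/
def m1v : RE := .v 1
/-- Mean count at the second node. -/
def m2v : RE := .v 2
/-- Mean count at the third node. -/
def bv : RE := .v 3
/-- The first squared node. -/
def s1E : RE := .q ((C.p.t.P0 * C.p.t.P0 : ℕ) : ℤ) (C.p.t.Q0 * C.p.t.Q0)
/-- The second squared node. -/
def s2E : RE := .q ((C.p.t.P1 * C.p.t.P1 : ℕ) : ℤ) (C.p.t.Q1 * C.p.t.Q1)
/-- The third squared node. -/
def s3E : RE := .q ((C.p.P2 * C.p.P2 : ℕ) : ℤ) (C.p.Q2 * C.p.Q2)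

/-- The deficiency polynomial. -/
def hH : RE :=
  hor m1v (C.tab.map fun r => hor m2v (r.map fun q => hor bv (q.map C.defic) 0) 0) 0

/-- The last coefficient of the exponential polynomial. -/
def lastC : RE :=
  .q (((C.n + 2) * (C.den * (C.p.t.P0 * C.p.t.P0)) : ℕ) : ℤ)
    ((C.n + 2) * (C.den * (C.p.t.P0 * C.p.t.P0)) - C.b * (C.p.t.Q0 * C.p.t.Q0))

/-- The exponential polynomial. -/
def ehE : RE := hor (m1v + (m2v + bv)) (List.replicate (C.n + 1) (.q 1 1) ++ [C.lastC]) 0

/-- The linear part of the lower bound. -/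
def linB : RE :=
  .q 4 1 * (C.s1E * (C.s2E + .q (-1) 1 * C.s1E)) * m2v
    + .q 4 1 * ((C.s2E + .q (-1) 1 * C.s1E) * (C.s3E + (C.s1E + .q (-1) 1 * C.s2E))) * bv

/-- The part entering squared. -/
def linA : RE :=
  C.s1E * m1v + (.q 2 1 * C.s1E + .q (-1) 1 * C.s2E) * m2v
    + (C.s3E + .q 2 1 * (C.s1E + .q (-1) 1 * C.s2E)) * bv

/-- The lower bound for the fourth moment. -/
def linL : RE := C.linB + .q C.dd C.dn * (C.linA * C.linA)

/-- The fourth moment of the nodes. -/
def quartE : RE := C.s1E * C.s1E * m1v + C.s2E * C.s2E * m2v + C.s3E * C.s3E * bv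

/-- The information factor. -/
def gamE : RE :=
  if C.gam then (.q 1 1 + .q (-2) 1 * xv) * (.q 1 1 + .q (-2) 1 * xv) else .q 0 1

/-- The weight, times the least degree, with the multipliers. -/
def coefE : RE :=
  .q C.p.t.cn C.p.t.cd * .q C.dn C.dd * .q ((C.md : ℤ) + C.mh - C.ml) C.md

/-- The right side. -/
def rhsE : RE :=
  xv + .q C.kn C.kd * (C.gamE * (C.quartE + .q (-1) 1 * C.linL)) + C.coefE * C.linL
    + .q C.mh C.md * (xv + .q (-(C.fh : ℤ)) C.fd)
    + .q C.ml C.md * (.q C.fl C.fd + .q (-1) 1 * xv) + .q (-1) 1000 * (xv * xv)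

/-- The polynomial of the cell. -/
def poly : RE := C.hH + (C.rhsE + .q (-(C.topE : ℤ)) C.p.t.E) * C.ehE

/-- First denominator. -/
def D1 : Ex := Ex.c 1 + Ex.x 0
/-- Second denominator. -/
def D2 : Ex := Ex.c 1 + Ex.x 1 + Ex.x 2

/-- The moment in the substitution. -/
def xN : Ex := Ex.c C.a + Ex.c C.b * Ex.x 0

/-- The substitution of the cell. -/
def env : ℕ → Fr
  | 0 => ⟨C.xN, C.den, 1, 0⟩
  | 1 => ⟨C.xN * Ex.c ((C.p.t.Q0 * C.p.t.Q0 : ℕ) : ℤ),
      C.den * (C.p.t.P0 * C.p.t.P0), 1, 1⟩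
  | 2 => ⟨C.xN * (Ex.c ((C.p.t.Q1 * C.p.t.Q1 : ℕ) : ℤ) * Ex.x 1),
      C.den * (C.p.t.P1 * C.p.t.P1), 1, 1⟩
  | 3 => ⟨C.xN * (Ex.c ((C.p.Q2 * C.p.Q2 : ℕ) : ℤ) * Ex.x 2),
      C.den * (C.p.P2 * C.p.P2), 1, 1⟩
  | _ => ⟨Ex.c 0, 1, 0, 0⟩

/-- The compiled numerator, with raised denominators. -/
def numP (r : ℕ) : Ex := (comp D1 D2 C.env C.poly).num * (exPow D1 r * exPow D2 r)

/-- The test of the polynomial. -/
def chkPoly (bits r : ℕ) : Bool :=
  Ex.goodR (fun z => decide (0 ≤ z)) bits (Ex.deg 0 (C.numP r) + 1) (Ex.deg 1 (C.numP r) + 1)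
    (Ex.deg 2 (C.numP r) + 1) 1 (C.numP r)

/-- The shape of the table and the admissibility of the parameters. -/
def chkShape : Bool :=
  C.p.good && decide (C.p.t.E * (C.p.t.cd + C.p.t.cn) % C.p.t.cd = 0)
    && C.tab.all (fun r => r.all fun q => q.all fun T => Nat.ble T C.topE)
    && decide (0 < C.p.t.P0)
    && decide (C.p.t.P0 * C.p.t.P0 * (C.p.t.Q1 * C.p.t.Q1)
      < C.p.t.P1 * C.p.t.P1 * (C.p.t.Q0 * C.p.t.Q0))
    && decide (C.p.t.P1 * C.p.t.P1 * (C.p.Q2 * C.p.Q2) < C.p.P2 * C.p.P2 * (C.p.t.Q1 * C.p.t.Q1))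
    && decide (C.a < C.b ∧ 0 < C.den ∧ 0 < C.dd ∧ 0 < C.dn ∧ 0 < C.kd ∧ 0 < C.md ∧ 0 < C.fd)
    && (!C.gam || decide (2 * C.b ≤ C.den))
    && decide (C.b * (C.p.t.Q0 * C.p.t.Q0) < (C.n + 2) * (C.den * (C.p.t.P0 * C.p.t.P0)))
    && decide (C.ml ≤ C.md)
    && decide (C.kn * (C.p.t.cd * (C.dd * C.md)) ≤ C.p.t.cn * C.dn * (C.md + C.mh - C.ml) * C.kd)

/-- All the tests of a cell, given the composition lists. -/
structure Valid (C : Cell3) : Prop where
  shape : C.chkShape = true
  poly : ∃ bits r, C.chkPoly bits r = true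
  table : ∃ lxs lys, chainL srt (cntL srt 0) lxs = true ∧ chainL id (cntL id 0) lys = true
    ∧ chkTab3 C.p lxs lys C.tab = true

end Cell3

end Window

end Vale.Agent.P154
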