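import Vale.Agent.P154.Window.Three.ScalarDataA
import Vale.Agent.P154.Window.Three.ScalarPoly
import Vale.Agent.P154.Window.RadixMask
import Vale.Agent.P154.Window.ScalarListsData

/-!
Kernel checks of one cell for at least 21/5 Poisson children.
-/

namespace Vale.Agent.P154

namespace Window

theorem cellA_0_shape : cellA_0.chkShape = true := by decide +kernel

theorem cellA_0_poly : cellA_0.chkPoly 860 0 = true := by
  exact Ex.goodR_of_posR (by decide +kernel)

theorem cellA_0_table : chkTab3 cellA_0.p lxsData lysData cellA_0.tab = true := by decide +kernel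

theorem cellA_0_valid : cellA_0.Valid :=
  ⟨cellA_0_shape, ⟨860, 0, cellA_0_poly⟩, ⟨lxsData, lysData, lxsData_ok, lysData_ok, cellA_0_table⟩⟩

end Window

end Vale.Agent.P154
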