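import Vale.Agent.P154.Window.Three.ScalarDataLow
import Vale.Agent.P154.Window.ScalarChk
import Vale.Agent.P154.Window.ScalarListsData

/-!
Kernel check of the cell near zero for at least 21/5 Poisson children.
-/

namespace Vale.Agent.P154

namespace Window

theorem cellLow_shape : cellLow.chkShape = true := by decide +kernel

theorem cellLow_poly : cellLow.chkPoly 616 = true := by decide +kernel

theorem cellLow_table : chkTab cellLow.t lysData 0 cellLow.tab lxsData = true := by decide +kernel

theorem cellLow_valid : cellLow.Valid :=
  ⟨cellLow_shape, ⟨616, cellLow_poly⟩, ⟨lxsData, lysData, lxsData_ok, lysData_ok, cellLow_table⟩⟩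

end Window

end Vale.Agent.P154
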