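import Vale.Agent.P154.Window.Three.ScalarCell
import Vale.Agent.P154.Window.ScalarSlack
import Vale.Agent.P154.Window.ScalarLists
import Vale.Agent.P154.Window.Three.Level
import Vale.Agent.P154.Window.Three.ScalarCheckA0
import Vale.Agent.P154.Window.Three.ScalarCheckA1
import Vale.Agent.P154.Window.Three.ScalarCheckA2
import Vale.Agent.P154.Window.Three.ScalarCheckA3
import Vale.Agent.P154.Window.Three.ScalarCheckA4
import Vale.Agent.P154.Window.Three.ScalarCheckA5
import Vale.Agent.P154.Window.Three.ScalarCheckA6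
import Vale.Agent.P154.Window.Three.ScalarCheckA7
import Vale.Agent.P154.Window.Three.ScalarCheckLow
import Vale.Agent.P154.Window.ScalarMain

/-!
Poisson numbers of children of mean at least 21/5: no reconstruction up to the second-moment bound.
-/

namespace Vale.Agent.P154

namespace Window

/-- A cell supplies the nodes of the inequality with three lengths. -/
lemma scal3_of_cell {C : Cell3} (hv : C.Valid) (hκ : C.kap = 17 / 50) (hκ' : C.kap' = 29 / 90)
    (hd0 : C.dR = 21 / 5) (hnu : 1 ≤ (21 / 5 : ℝ) * C.nu ^ 2) (hm : C.mh = 0 ∧ C.ml = 0)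
    {d X : ℝ} (hd : 21 / 5 ≤ d) (hX0 : 0 < X) (hlo : C.lo ≤ X) (hhi : X ≤ C.hi) :
    Scal3 (17 / 50) (29 / 90) d (poisSum3 (17 / 50)) (1 / 1000) X := by
  have hF := C.facts hv.shape
  refine ⟨C.mu1, C.mu2, C.nu, hF.h1, hF.h12, hF.h23, hF.hnu,
    Or.inl (le_trans hnu (mul_le_mul_of_nonneg_right hd (sq_nonneg _))), ?_⟩
  intro M1 M2 b u1 u2 Qs c hb hu1 hu1' hu2 hu2' hX _ hL hQ hc hc1
  have h := Cell3.cell3_poisson hv hX0 hlo hhi (le_trans hu1 hu1') (le_trans hu2 hu2') hb hX
    (by rw [hd0]; exact hd) hL hQ hc hc1 (Or.inl hm.1) (Or.inl hm.2)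
  rw [hκ, hκ'] at h
  linarith

/-- The inequality with three lengths for at least 21/5 Poisson children, away from zero. -/
theorem scal3_upper {d X : ℝ} (hd : 21 / 5 ≤ d) (h0 : 1 / 40 ≤ X) (h1 : X ≤ 1) :
    Scal3 (17 / 50) (29 / 90) d (poisSum3 (17 / 50)) (1 / 1000) X := by
  have hX0 : 0 < X := by linarith
  rcases le_or_gt X (520 / 10000) with g | g
  · exact scal3_of_cell cellA_0_valid (by norm_num [cellA_0, Cell3.kap, TPar.kap])
      (by norm_num [cellA_0, Cell3.kap']) (by norm_num [cellA_0, Cell3.dR])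
      (by norm_num [cellA_0, Cell3.nu, TPar3.nu]) ⟨rfl, rfl⟩ hd hX0
      (by norm_num [cellA_0, Cell3.lo]; linarith) (by norm_num [cellA_0, Cell3.hi]; linarith)
  rcases le_or_gt X (884 / 10000) with g1 | g1
  · exact scal3_of_cell cellA_1_valid (by norm_num [cellA_1, Cell3.kap, TPar.kap])
      (by norm_num [cellA_1, Cell3.kap']) (by norm_num [cellA_1, Cell3.dR])
      (by norm_num [cellA_1, Cell3.nu, TPar3.nu]) ⟨rfl, rfl⟩ hd hX0
      (by norm_num [cellA_1, Cell3.lo]; linarith) (by norm_num [cellA_1, Cell3.hi]; linarith)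
  rcases le_or_gt X (1238 / 10000) with g2 | g2
  · exact scal3_of_cell cellA_2_valid (by norm_num [cellA_2, Cell3.kap, TPar.kap])
      (by norm_num [cellA_2, Cell3.kap']) (by norm_num [cellA_2, Cell3.dR])
      (by norm_num [cellA_2, Cell3.nu, TPar3.nu]) ⟨rfl, rfl⟩ hd hX0
      (by norm_num [cellA_2, Cell3.lo]; linarith) (by norm_num [cellA_2, Cell3.hi]; linarith)
  rcases le_or_gt X (1733 / 10000) with g3 | g3
  · exact scal3_of_cell cellA_3_valid (by norm_num [cellA_3, Cell3.kap, TPar.kap])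
      (by norm_num [cellA_3, Cell3.kap']) (by norm_num [cellA_3, Cell3.dR])
      (by norm_num [cellA_3, Cell3.nu, TPar3.nu]) ⟨rfl, rfl⟩ hd hX0
      (by norm_num [cellA_3, Cell3.lo]; linarith) (by norm_num [cellA_3, Cell3.hi]; linarith)
  rcases le_or_gt X (2253 / 10000) with g4 | g4
  · exact scal3_of_cell cellA_4_valid (by norm_num [cellA_4, Cell3.kap, TPar.kap])
      (by norm_num [cellA_4, Cell3.kap']) (by norm_num [cellA_4, Cell3.dR])
      (by norm_num [cellA_4, Cell3.nu, TPar3.nu]) ⟨rfl, rfl⟩ hd hX0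
      (by norm_num [cellA_4, Cell3.lo]; linarith) (by norm_num [cellA_4, Cell3.hi]; linarith)
  rcases le_or_gt X (2816 / 10000) with g5 | g5
  · exact scal3_of_cell cellA_5_valid (by norm_num [cellA_5, Cell3.kap, TPar.kap])
      (by norm_num [cellA_5, Cell3.kap']) (by norm_num [cellA_5, Cell3.dR])
      (by norm_num [cellA_5, Cell3.nu, TPar3.nu]) ⟨rfl, rfl⟩ hd hX0
      (by norm_num [cellA_5, Cell3.lo]; linarith) (by norm_num [cellA_5, Cell3.hi]; linarith)
  rcases le_or_gt X (5000 / 10000) with g6 | g6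
  · exact scal3_of_cell cellA_6_valid (by norm_num [cellA_6, Cell3.kap, TPar.kap])
      (by norm_num [cellA_6, Cell3.kap']) (by norm_num [cellA_6, Cell3.dR])
      (by norm_num [cellA_6, Cell3.nu, TPar3.nu]) ⟨rfl, rfl⟩ hd hX0
      (by norm_num [cellA_6, Cell3.lo]; linarith) (by norm_num [cellA_6, Cell3.hi]; linarith)
  exact scal3_of_cell cellA_7_valid (by norm_num [cellA_7, Cell3.kap, TPar.kap])
    (by norm_num [cellA_7, Cell3.kap']) (by norm_num [cellA_7, Cell3.dR])
    (by norm_num [cellA_7, Cell3.nu, TPar3.nu]) ⟨rfl, rfl⟩ hd hX0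
    (by norm_num [cellA_7, Cell3.lo]; linarith) (by norm_num [cellA_7, Cell3.hi]; linarith)

/-- The two-node inequality near zero for at least 21/5 Poisson children. -/
theorem scal_low {d X : ℝ} (hd : 21 / 5 ≤ d) (hX0 : 0 < X) (hX1 : X ≤ 3 / 100) :
    Scal (1 / 5) (1 / 5) d (poisSum (1 / 5)) (1 / 100) X := by
  have hv := cellLow_valid
  have hF := cellLow.facts hv.shape
  refine ⟨cellLow.mu, cellLow.nu, hF.hmu, hF.hmn, hF.hnu, Or.inl ?_, ?_⟩
  · refine le_trans ?_ (mul_le_mul_of_nonneg_right hd (sq_nonneg _))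
    norm_num [cellLow, Cell.nu, TPar.nu]
  intro M b wl Qs c hb hwl hwlM hX _ hL hQ hc hc1
  have h := Cell.cell_poisson hv hX0 (by norm_num [cellLow, Cell.lo]; linarith)
    (by norm_num [cellLow, Cell.hi]; linarith) (le_trans hwl hwlM) hb hX
    (by norm_num [cellLow, Cell.dR]; linarith) hL hQ hc hc1
  have hk : cellLow.kap = 1 / 5 := by norm_num [cellLow, Cell.kap, TPar.kap]
  rw [hk] at h
  rw [poisSum_eq]
  linarith

lemma cc_upper_pair : CC (17 / 50) (29 / 90) := by
  have := cc_upper (κ := 17 / 50) (by norm_num) (by norm_num)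
  norm_num at this
  exact this

/-- No reconstruction for Poisson means at least 21/5 up to `d l² = 1`. -/
theorem nonrec_poisson_upper {d l : ℝ} (hd : 21 / 5 ≤ d) (h0 : -(1 / 2) ≤ l) (h1 : l ≤ 1 / 2)
    (hdl : d * l ^ 2 ≤ 1) : Nonreconstruction (poissonLaw d) l := by
  have hd0 : 0 < d := by linarith
  have hp := poisson_law hd0
  have ok := tab_ok hp h0 (by linarith : l ≤ 1)
  have nn : ∀ n, 0 ≤ info (poissonLaw d) l n := fun n =>
    (ok n).mo_nonneg fun _ _ _ => mA_nonneg
  have r0 : 0 ≤ d * l ^ 2 := mul_nonneg hd0.le (sq_nonneg l)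
  obtain ⟨n, hn⟩ := reach_of_drop (κ := 17 / 50) (ε := 1 / 1000) hp h0 h1 hd0.le hdl (by norm_num)
    (by norm_num) (by norm_num) (X0 := 1 / 40) (by norm_num) fun m hm =>
      drop3_poisson hd0 h0 h1 hdl cc_upper_pair (by norm_num) (by norm_num) (by norm_num)
        (by norm_num) (by norm_num) m
        (scal3_upper hd hm (mul_le_one₀ hdl (nn m) (ok m).mA_le_one))
  have low : ∀ X : ℝ, 0 ≤ X → X ≤ 3 / 100 → Scal (1 / 5) (1 / 5) d (poisSum (1 / 5)) (1 / 100) X :=
    fun X x0 x1 => (eq_or_lt_of_le x0).elim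
      (fun h => h ▸ scal_zero_poisson (1 / 5) (1 / 5) (by linarith) (by norm_num) (1 / 100)
        (1 / 4) (1 / 2) (by norm_num) (by norm_num) le_rfl (Or.inr rfl))
      fun h => scal_low hd h x1
  have drop : ∀ m, d * l ^ 2 * info (poissonLaw d) l m ≤ 3 / 100 →
      Drop (1 / 5) (1 / 100) (poissonLaw d) d l m := fun m hm =>
    drop_poisson hd0 h0 h1 hdl (cc_diag (by norm_num) (by norm_num)) (by norm_num) (by norm_num)
      (by norm_num) (by norm_num) (by norm_num) m (low _ (mul_nonneg r0 (nn m)) hm)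
  have hQA : mo mQ (tab (poissonLaw d) l n) ≤ info (poissonLaw d) l n :=
    div_le_div_of_nonneg_right (hasSum_le
      (fun y => mQ_le_mA ((ok n).nonneg y 0) ((ok n).nonneg y 1) ((ok n).nonneg y 2))
      ((ok n).summable_mom dom_mQ).hasSum ((ok n).summable_mom dom_mA).hasSum) (by norm_num)
  refine nonrec_of_drop (d := d) (κ := 1 / 5) (ε := 1 / 100) hp h0 h1 hd0.le hdl (by norm_num)
    (by norm_num) (by norm_num) (3 / 100) (n0 := n + 1) ?_ fun m hm => drop m ?_
  · have h := drop n (by linarith)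
    unfold Drop at h
    have q0 : 0 ≤ mo mQ (tab (poissonLaw d) l n) := (ok n).mo_nonneg fun _ _ _ => mQ_nonneg
    have h2 := mul_le_mul_of_nonneg_right (mul_le_mul_of_nonneg_left hdl r0) q0
    have h3 := mul_le_mul_of_nonneg_left hQA r0
    have := sq_nonneg (d * l ^ 2 * info (poissonLaw d) l n)
    linarith
  · have h2 := mul_le_mul_of_nonneg_right hdl (nn m)
    rw [pot_eq ⟨ok 0, ok⟩ (1 / 5) m] at hm
    have := (ok m).mo_nonneg (g := mQ) fun _ _ _ => mQ_nonneg
    linarith

end Window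

end Vale.Agent.P154
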