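import Vale.Agent.P154.Window.Node

/-!
The potential of three reference children, apart from the analytic chain so that the table checks
need no convexity certificate.
-/

namespace Vale.Agent.P154

namespace Window

/-- The potential of copies of three reference children. -/
noncomputable def nodeG (κ μ1 μ2 ν : ℝ) (i j k : ℕ) : ℝ :=
  mo (mPhi κ) (pair (pair (power (node μ1) i) (power (node μ2) j)) (power (node ν) k))

end Window

end Vale.Agent.P154
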