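import Vale.Agent.P154.Window.Recursion
import Vale.Agent.P154.Window.Three.NodeDef

/-!
The scalar inequality with three positive reference lengths: definitions.
-/

namespace Vale.Agent.P154

namespace Window

/-- The Poisson average of the potential of three reference children. -/
noncomputable def poisSum3 (κ μ1 μ2 ν M1 M2 b : ℝ) : ℝ :=
  ∑' z : ℕ × ℕ × ℕ, Real.exp (-(M1 + M2 + b)) * M1 ^ z.1 * M2 ^ z.2.1 * b ^ z.2.2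
    / ((z.1.factorial : ℝ) * z.2.1.factorial * z.2.2.factorial)
    * nodeG κ μ1 μ2 ν z.1 z.2.1 z.2.2

/-- The average over a fixed number of children. -/
noncomputable def binSum3 (κ μ1 μ2 ν : ℝ) (n : ℕ) (M1 M2 b : ℝ) : ℝ :=
  ∑ y ∈ Finset.antidiagonal n, ∑ z ∈ Finset.antidiagonal y.2, ∑ u ∈ Finset.antidiagonal z.2,
    (n.factorial : ℝ)
      / ((y.1.factorial : ℝ) * z.1.factorial * u.1.factorial * u.2.factorial)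
      * (1 - (M1 + M2 + b) / n) ^ y.1 * (M1 / n) ^ z.1 * (M2 / n) ^ u.1 * (b / n) ^ u.2
      * nodeG κ μ1 μ2 ν z.1 u.1 u.2

/-- A scalar bound on the squared lengths, one linearisation for each of the three intervals. -/
def Lin3 (d μ1 μ2 ν M1 M2 b u1 u2 Qs : ℝ) : Prop :=
  ∀ η' θ ζ : ℝ, 2 * η' * μ1 ^ 2 * u1 - η' ^ 2 * (d - (M1 - u1) - M2 - b)
      + 2 * θ * (μ1 ^ 2 * (M1 - u1) + μ2 ^ 2 * u2) - θ ^ 2 * (M1 - u1 + u2)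
      + 2 * ζ * (μ2 ^ 2 * (M2 - u2) + ν ^ 2 * b) - ζ ^ 2 * (M2 - u2 + b) ≤ Qs

/-- The scalar inequality for one value of the information. -/
def Scal3 (κ κ' d : ℝ) (T : ℝ → ℝ → ℝ → ℝ → ℝ → ℝ → ℝ) (ε X : ℝ) : Prop :=
  ∃ μ1 μ2 ν : ℝ, 0 < μ1 ∧ μ1 < μ2 ∧ μ2 < ν ∧ ν ≤ 1 / 2 ∧ (1 ≤ d * ν ^ 2 ∨ ν = 1 / 2) ∧
    ∀ M1 M2 b u1 u2 Qs c : ℝ, 0 ≤ b → 0 ≤ u1 → u1 ≤ M1 → 0 ≤ u2 → u2 ≤ M2 →
      μ1 ^ 2 * M1 + μ2 ^ 2 * M2 + ν ^ 2 * b = X → M1 + M2 + b ≤ d →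
      Lin3 d μ1 μ2 ν M1 M2 b u1 u2 Qs → Qs ≤ μ1 ^ 4 * M1 + μ2 ^ 4 * M2 + ν ^ 4 * b →
      cX X ≤ c → c ≤ 1 →
      T μ1 μ2 ν M1 M2 b ≤ X + κ' * (c * (μ1 ^ 4 * M1 + μ2 ^ 4 * M2 + ν ^ 4 * b))
        + (κ * d - κ' * c) * Qs - ε * X ^ 2

end Window

end Vale.Agent.P154
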