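import Vale.Agent.P154.Window.Three.Defs
import Vale.Agent.P154.Window.Monotone

/-!
Several copies of a mixture of an uninformative child and three reference children.
-/

namespace Vale.Agent.P154

namespace Window

open Finset

/-- The convolution of three indexed exponential series. -/
noncomputable def tri (w1 w2 w3 : ℝ) (F : ℕ → ℕ → ℕ → ℝ) (i j k r : ℕ) : ℝ :=
  ∑ z ∈ antidiagonal r, ew w1 z.1 * duo w2 w3 (F (i + z.1)) j k z.2

lemma tri_succ (w1 w2 w3 : ℝ) (F : ℕ → ℕ → ℕ → ℝ) (i j k r : ℕ) :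
    ((r : ℝ) + 1) * tri w1 w2 w3 F i j k (r + 1)
      = w1 * tri w1 w2 w3 F (i + 1) j k r + w2 * tri w1 w2 w3 F i (j + 1) k r
        + w3 * tri w1 w2 w3 F i j (k + 1) r := by
  simp only [tri, mul_sum]
  have h : ∀ z ∈ antidiagonal (r + 1),
      ((r : ℝ) + 1) * (ew w1 z.1 * duo w2 w3 (F (i + z.1)) j k z.2)
      = ((z.1 : ℝ) * ew w1 z.1) * duo w2 w3 (F (i + z.1)) j k z.2
        + ew w1 z.1 * ((z.2 : ℝ) * duo w2 w3 (F (i + z.1)) j k z.2) := fun z hz => by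
    have : ((r : ℝ) + 1) = (z.1 : ℝ) + z.2 := by
      exact_mod_cast (mem_antidiagonal.mp hz).symm
    rw [this]; ring
  rw [sum_congr rfl h, sum_add_distrib, add_assoc]
  congr 1
  · rw [Nat.sum_antidiagonal_succ]
    simp only [Nat.cast_zero, zero_mul, zero_add]
    refine sum_congr rfl fun z _ => ?_
    push_cast
    rw [ew_succ, show i + (z.1 + 1) = i + 1 + z.1 by omega]; ring
  · rw [Nat.sum_antidiagonal_succ', ← sum_add_distrib]
    simp only [Nat.cast_zero, zero_mul, mul_zero, zero_add]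
    refine sum_congr rfl fun z _ => ?_
    push_cast
    rw [duo_succ]; ring

/-- The fourfold convolution. -/
noncomputable def quart (w0 w1 w2 w3 : ℝ) (F : ℕ → ℕ → ℕ → ℝ) (i j k N : ℕ) : ℝ :=
  econv w0 (tri w1 w2 w3 F i j k) N

lemma quart_zero (w0 w1 w2 w3 : ℝ) (F : ℕ → ℕ → ℕ → ℝ) (i j k : ℕ) :
    quart w0 w1 w2 w3 F i j k 0 = F i j k := by
  simp [quart, econv, tri, duo, ew]

lemma quart_succ (w0 w1 w2 w3 : ℝ) (F : ℕ → ℕ → ℕ → ℝ) (i j k N : ℕ) :
    ((N : ℝ) + 1) * quart w0 w1 w2 w3 F i j k (N + 1)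
      = w0 * quart w0 w1 w2 w3 F i j k N + w1 * quart w0 w1 w2 w3 F (i + 1) j k N
        + w2 * quart w0 w1 w2 w3 F i (j + 1) k N + w3 * quart w0 w1 w2 w3 F i j (k + 1) N := by
  rw [quart, econv_succ]
  simp only [quart, tri_succ, econv, mul_sum, ← sum_add_distrib]
  refine sum_congr rfl fun z _ => ?_
  ring

/-- A four-term recursion is solved by the fourfold convolution. -/
theorem solve_rec4 {w0 w1 w2 w3 : ℝ} (f : ℕ → ℕ → ℕ → ℕ → ℝ) (F : ℕ → ℕ → ℕ → ℝ)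
    (h0 : ∀ i j k, f 0 i j k = F i j k)
    (hs : ∀ N i j k, f (N + 1) i j k = w0 * f N i j k + w1 * f N (i + 1) j k
      + w2 * f N i (j + 1) k + w3 * f N i j (k + 1)) :
    ∀ N i j k, f N i j k = (N.factorial : ℝ) * quart w0 w1 w2 w3 F i j k N
  | 0, i, j, k => by simp [h0, quart_zero]
  | N + 1, i, j, k => by
    rw [hs, solve_rec4 f F h0 hs N i j k, solve_rec4 f F h0 hs N (i + 1) j k,
      solve_rec4 f F h0 hs N i (j + 1) k, solve_rec4 f F h0 hs N i j (k + 1), Nat.factorial_succ,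
      Nat.cast_mul, Nat.cast_succ]
    have := quart_succ w0 w1 w2 w3 F i j k N
    linear_combination (-(N.factorial : ℝ)) * this

lemma pow_mul_tri (d w1 w2 w3 : ℝ) (F : ℕ → ℕ → ℕ → ℝ) (r : ℕ) :
    d ^ r * tri w1 w2 w3 F 0 0 0 r = tri (d * w1) (d * w2) (d * w3) F 0 0 0 r := by
  simp only [tri, mul_sum]
  refine sum_congr rfl fun z hz => ?_
  rw [← mem_antidiagonal.mp hz, pow_add, ← pow_mul_duo]
  simp only [ew, mul_pow]
  ring

/-- Summing over antidiagonals. -/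
lemma antidiag_hasSum {t : ℕ × ℕ → ℝ} (ht : Summable t) :
    HasSum (fun r => ∑ z ∈ antidiagonal r, t z) (∑' z, t z)
      ∧ Summable fun r => ‖∑ z ∈ antidiagonal r, t z‖ := by
  have h := (Equiv.hasSum_iff (HasAntidiagonal.sigmaAntidiagonalEquivProd (A := ℕ))).mpr ht.hasSum
  have h0 : HasSum (fun c : (r : ℕ) × (antidiagonal r : Finset (ℕ × ℕ)) => t c.2.1) (∑' z, t z) := h
  refine ⟨HasSum.sigma h0 fun r => sum_coe_sort (antidiagonal r) t ▸ hasSum_fintype _, ?_⟩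
  refine Summable.of_nonneg_of_le (fun r => norm_nonneg _) (fun r => ?_) h0.summable.abs.sigma
  rw [tsum_fintype, Real.norm_eq_abs]
  refine le_trans (abs_sum_le_sum_abs _ _) (le_of_eq ?_)
  exact (sum_coe_sort (antidiagonal r) fun z => |t z|).symm

lemma abs_ew (w : ℝ) (n : ℕ) : |ew w n| = ew |w| n := by
  simp [ew, abs_div, abs_pow]

lemma abs_duo_le {w2 w3 C : ℝ} {F : ℕ → ℕ → ℝ} (hC : ∀ j k, |F j k| ≤ C) (j k s : ℕ) :
    |duo w2 w3 F j k s| ≤ C * ew (|w2| + |w3|) s := by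
  rw [← ew_add, mul_sum, duo]
  refine le_trans (abs_sum_le_sum_abs _ _) (sum_le_sum fun z _ => ?_)
  rw [abs_mul, abs_mul, abs_ew, abs_ew]
  have h1 := ew_nonneg (abs_nonneg w2) z.1
  have h2 := ew_nonneg (abs_nonneg w3) z.2
  calc ew |w2| z.1 * (ew |w3| z.2 * |F (j + z.1) (k + z.2)|) ≤ ew |w2| z.1 * (ew |w3| z.2 * C) :=
        mul_le_mul_of_nonneg_left (mul_le_mul_of_nonneg_left (hC _ _) h2) h1
    _ = C * (ew |w2| z.1 * ew |w3| z.2) := by ring

/-- The Poisson average of the fourfold convolution. -/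
theorem hasSum_pow_quart {d w0 w1 w2 w3 : ℝ} {F : ℕ → ℕ → ℕ → ℝ} {C : ℝ}
    (hC : ∀ i j k, |F i j k| ≤ C) :
    HasSum (fun N => d ^ N * quart w0 w1 w2 w3 F 0 0 0 N)
      (Real.exp (d * w0) * ∑' z : ℕ × ℕ × ℕ,
        ew (d * w1) z.1 * (ew (d * w2) z.2.1 * (ew (d * w3) z.2.2 * F z.1 z.2.1 z.2.2))) := by
  set M1 := d * w1
  set M2 := d * w2
  set b := d * w3
  set g : ℕ × ℕ → ℝ := fun z => ew M1 z.1 * duo M2 b (F z.1) 0 0 z.2 with hg
  have hgs : Summable g := by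
    have h : Summable fun z : ℕ × ℕ => ‖ew M1 z.1‖ * (C * ew (|M2| + |b|) z.2) :=
      summable_mul_of_summable_norm (f := fun n => ‖ew M1 n‖)
        (g := fun n => C * ew (|M2| + |b|) n) (by simpa using summable_ew M1)
        (((Real.summable_pow_div_factorial _).mul_left C).abs)
    refine Summable.of_norm_bounded h fun z => ?_
    rw [hg, norm_mul]
    exact mul_le_mul_of_nonneg_left (abs_duo_le (hC z.1) 0 0 z.2) (norm_nonneg _)
  set t : ℕ × ℕ × ℕ → ℝ := fun z =>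
    ew M1 z.1 * (ew M2 z.2.1 * (ew b z.2.2 * F z.1 z.2.1 z.2.2)) with ht
  have hts : Summable t := by
    have h2 : Summable fun z : ℕ × ℕ => ‖ew M2 z.1‖ * (‖ew b z.2‖ * C) :=
      summable_mul_of_summable_norm (f := fun n => ‖ew M2 n‖) (g := fun n => ‖ew b n‖ * C)
        (by simpa using summable_ew M2) (((summable_ew b).mul_right C).abs)
    have h : Summable fun z : ℕ × ℕ × ℕ => ‖ew M1 z.1‖ * (‖ew M2 z.2.1‖ * (‖ew b z.2.2‖ * C)) :=
      summable_mul_of_summable_norm (f := fun n => ‖ew M1 n‖)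
        (g := fun z : ℕ × ℕ => ‖ew M2 z.1‖ * (‖ew b z.2‖ * C)) (by simpa using summable_ew M1)
        h2.abs
    refine Summable.of_norm_bounded h fun z => ?_
    simp only [ht, norm_mul]
    exact mul_le_mul_of_nonneg_left (mul_le_mul_of_nonneg_left (mul_le_mul_of_nonneg_left (hC _ _ _)
      (norm_nonneg _)) (norm_nonneg _)) (norm_nonneg _)
  have hval : ∑' z, g z = ∑' z, t z := by
    rw [hgs.tsum_prod, hts.tsum_prod]
    refine tsum_congr fun i => ?_
    simp only [hg, ht]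
    rw [tsum_mul_left, tsum_mul_left]
    congr 1
    have h := (antidiag_hasSum (summable_ew_pair (M := M2) (b := b) (hC i))).1
    rw [← h.tsum_eq]
    refine tsum_congr fun s => ?_
    simp [duo]
  obtain ⟨h1, hn⟩ := antidiag_hasSum hgs
  rw [hval] at h1
  have e0 : ∀ r, tri M1 M2 b F 0 0 0 r = ∑ z ∈ antidiagonal r, g z := fun r => by
    simp only [tri, hg, zero_add]
  simp only [← e0] at h1 hn
  have h2 := tsum_mul_tsum_eq_tsum_sum_antidiagonal_of_summable_norm (summable_ew (d * w0)) hn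
  have h3 := summable_norm_sum_mul_antidiagonal_of_summable_norm (summable_ew (d * w0)) hn
  have e : ∀ N, d ^ N * quart w0 w1 w2 w3 F 0 0 0 N
      = econv (d * w0) (tri M1 M2 b F 0 0 0) N := fun N => by
    rw [quart, pow_mul_econv]
    simp only [pow_mul_tri, M1, M2, b]
  simp only [e]
  rw [← tsum_ew, ← h1.tsum_eq, h2]
  exact h3.of_norm.hasSum

variable {ι : Type} {L : Lik ι} {μ1 μ2 ν : ℝ} {w : Fin 4 → ℝ}

lemma mo_of_equiv {α β : Type} {A : Lik α} {B : Lik β} (g : ℝ → ℝ → ℝ → ℝ) (e : α ≃ β)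
    (h : ∀ z l, A z l = B (e z) l) : mo g A = mo g B := by
  rw [show A = reindex e B from funext fun z => funext fun l => h z l, mo_reindex]

/-- The potential of some reference copies combined with further copies of a mixture. -/
noncomputable def refPhi3 (κ μ1 μ2 ν : ℝ) (w : Fin 4 → ℝ) (N i j k : ℕ) : ℝ :=
  mo (mPhi κ) (pair (pair (pair (power (node μ1) i) (power (node μ2) j)) (power (node ν) k))
    (power (mixNode w ![0, μ1, μ2, ν]) N))

lemma refPhi3_succ (hw : ∀ i, 0 ≤ w i) (hw1 : ∑ i, w i = 1) (h0 : 0 ≤ μ1) (h0' : μ1 ≤ 1 / 2)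
    (h1 : 0 ≤ μ2) (h1' : μ2 ≤ 1 / 2) (h2 : 0 ≤ ν) (h2' : ν ≤ 1 / 2) (κ : ℝ) (N i j k : ℕ) :
    refPhi3 κ μ1 μ2 ν w (N + 1) i j k = w 0 * refPhi3 κ μ1 μ2 ν w N i j k
      + w 1 * refPhi3 κ μ1 μ2 ν w N (i + 1) j k + w 2 * refPhi3 κ μ1 μ2 ν w N i (j + 1) k
      + w 3 * refPhi3 κ μ1 μ2 ν w N i j (k + 1) := by
  have hμ : ∀ a : Fin 4, 0 ≤ (![0, μ1, μ2, ν] a : ℝ) ∧ ![0, μ1, μ2, ν] a ≤ 1 / 2 := fun a => by
    fin_cases a <;> simp <;> constructor <;> linarith
  have hQ := mixNode_ok hw hw1 hμ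
  have hX : ∀ i j k, Ok (pair (pair (power (node μ1) i) (power (node μ2) j)) (power (node ν) k)) :=
    fun i j k => pair_ok (pair_ok (power_ok _ (node_ok h0 h0') i) (power_ok _ (node_ok h1 h1') j))
      (power_ok _ (node_ok h2 h2') k)
  have hXQ := pair_ok (hX i j k) (power_ok _ hQ N)
  rw [refPhi3, mo_pair_power_succ, mo_swap_right, mo_pair_mixNode hw hw1 hμ hXQ,
    Fin.sum_univ_four]
  set X := pair (pair (pair (power (node μ1) i) (power (node μ2) j)) (power (node ν) k))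
    (power (mixNode w ![0, μ1, μ2, ν]) N) with hXdef
  have a0 := mo_pair_node_zero hXQ κ
  have a1 : mo (mPhi κ) (pair X (node μ1)) = refPhi3 κ μ1 μ2 ν w N (i + 1) j k := by
    let e : ((((Fin i → Fin 3) × (Fin j → Fin 3)) × (Fin k → Fin 3)) × (Fin N → Fin 4 × Fin 3))
        × Fin 3
        ≃ (((Fin (i + 1) → Fin 3) × (Fin j → Fin 3)) × (Fin k → Fin 3))
          × (Fin N → Fin 4 × Fin 3) :=
      { toFun := fun z => (((Fin.cons z.2 z.1.1.1.1, z.1.1.1.2), z.1.1.2), z.1.2)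
        invFun := fun z => ((((Fin.tail z.1.1.1, z.1.1.2), z.1.2), z.2), z.1.1.1 0)
        left_inv := fun z => by simp
        right_inv := fun z => by simp [Fin.cons_self_tail] }
    rw [refPhi3]
    refine mo_of_equiv _ e fun z l => ?_
    simp [hXdef, pair, power, e, Fin.prod_univ_succ]
    ring
  have a2 : mo (mPhi κ) (pair X (node μ2)) = refPhi3 κ μ1 μ2 ν w N i (j + 1) k := by
    let e : ((((Fin i → Fin 3) × (Fin j → Fin 3)) × (Fin k → Fin 3)) × (Fin N → Fin 4 × Fin 3))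
        × Fin 3
        ≃ (((Fin i → Fin 3) × (Fin (j + 1) → Fin 3)) × (Fin k → Fin 3))
          × (Fin N → Fin 4 × Fin 3) :=
      { toFun := fun z => (((z.1.1.1.1, Fin.cons z.2 z.1.1.1.2), z.1.1.2), z.1.2)
        invFun := fun z => ((((z.1.1.1, Fin.tail z.1.1.2), z.1.2), z.2), z.1.1.2 0)
        left_inv := fun z => by simp
        right_inv := fun z => by simp [Fin.cons_self_tail] }
    rw [refPhi3]
    refine mo_of_equiv _ e fun z l => ?_
    simp [hXdef, pair, power, e, Fin.prod_univ_succ]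
    ring
  have a3 : mo (mPhi κ) (pair X (node ν)) = refPhi3 κ μ1 μ2 ν w N i j (k + 1) := by
    let e : ((((Fin i → Fin 3) × (Fin j → Fin 3)) × (Fin k → Fin 3)) × (Fin N → Fin 4 × Fin 3))
        × Fin 3
        ≃ (((Fin i → Fin 3) × (Fin j → Fin 3)) × (Fin (k + 1) → Fin 3))
          × (Fin N → Fin 4 × Fin 3) :=
      { toFun := fun z => (((z.1.1.1.1, z.1.1.1.2), Fin.cons z.2 z.1.1.2), z.1.2)
        invFun := fun z => ((((z.1.1.1, z.1.1.2), Fin.tail z.1.2), z.2), z.1.2 0)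
        left_inv := fun z => by simp
        right_inv := fun z => by simp [Fin.cons_self_tail] }
    rw [refPhi3]
    refine mo_of_equiv _ e fun z l => ?_
    simp [hXdef, pair, power, e, Fin.prod_univ_succ]
    ring
  simp only [Matrix.cons_val_zero, Matrix.cons_val_one, Matrix.cons_val]
  rw [a0, a1, a2, a3]
  rfl

/-- Copies of the mixture in closed form. -/
theorem mo_power_mix3 (hw : ∀ i, 0 ≤ w i) (hw1 : ∑ i, w i = 1) (h0 : 0 ≤ μ1) (h0' : μ1 ≤ 1 / 2)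
    (h1 : 0 ≤ μ2) (h1' : μ2 ≤ 1 / 2) (h2 : 0 ≤ ν) (h2' : ν ≤ 1 / 2) (κ : ℝ) (N : ℕ) :
    mo (mPhi κ) (power (mixNode w ![0, μ1, μ2, ν]) N)
      = (N.factorial : ℝ) * quart (w 0) (w 1) (w 2) (w 3) (nodeG κ μ1 μ2 ν) 0 0 0 N := by
  have e : mo (mPhi κ) (power (mixNode w ![0, μ1, μ2, ν]) N) = refPhi3 κ μ1 μ2 ν w N 0 0 0 := by
    let e : (Fin N → Fin 4 × Fin 3)
        ≃ (((Fin 0 → Fin 3) × (Fin 0 → Fin 3)) × (Fin 0 → Fin 3)) × (Fin N → Fin 4 × Fin 3) :=
      { toFun := fun z => (((Fin.elim0, Fin.elim0), Fin.elim0), z)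
        invFun := fun z => z.2
        left_inv := fun _ => rfl
        right_inv := fun z => by
          obtain ⟨⟨⟨a, b⟩, c⟩, q⟩ := z
          simp [Subsingleton.elim a Fin.elim0, Subsingleton.elim b Fin.elim0,
            Subsingleton.elim c Fin.elim0] }
    rw [refPhi3]
    refine mo_of_equiv _ e fun z l => ?_
    simp [pair, power, e]
  rw [e]
  exact solve_rec4 (refPhi3 κ μ1 μ2 ν w) (nodeG κ μ1 μ2 ν)
    (fun i j k => by rw [refPhi3, mo_pair_power_zero, nodeG])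
    (fun N i j k => refPhi3_succ hw hw1 h0 h0' h1 h1' h2 h2' κ N i j k) N 0 0 0

/-- The Poisson average of copies of the mixture. -/
theorem poisson_mix3 (hw : ∀ i, 0 ≤ w i) (hw1 : ∑ i, w i = 1) (h0 : 0 ≤ μ1) (h0' : μ1 ≤ 1 / 2)
    (h1 : 0 ≤ μ2) (h1' : μ2 ≤ 1 / 2) (h2 : 0 ≤ ν) (h2' : ν ≤ 1 / 2) (κ d : ℝ) :
    HasSum (fun N => poissonLaw d N * mo (mPhi κ) (power (mixNode w ![0, μ1, μ2, ν]) N))
      (poisSum3 κ μ1 μ2 ν (d * w 1) (d * w 2) (d * w 3)) := by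
  have hC : ∀ i j k, |nodeG κ μ1 μ2 ν i j k| ≤ 1 + |κ| := fun i j k =>
    abs_mo_le (pair_ok (pair_ok (power_ok _ (node_ok h0 h0') i) (power_ok _ (node_ok h1 h1') j))
      (power_ok _ (node_ok h2 h2') k)) (dom_mPhi κ)
  have h := ((hasSum_pow_quart (d := d) (w0 := w 0) (w1 := w 1) (w2 := w 2) (w3 := w 3)
    hC).mul_left (Real.exp (-d)))
  have e : ∀ N, poissonLaw d N * mo (mPhi κ) (power (mixNode w ![0, μ1, μ2, ν]) N)
      = Real.exp (-d) * (d ^ N * quart (w 0) (w 1) (w 2) (w 3) (nodeG κ μ1 μ2 ν) 0 0 0 N) :=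
    fun N => by
    rw [mo_power_mix3 hw hw1 h0 h0' h1 h1' h2 h2', poissonLaw]
    field_simp
  simp only [e]
  refine hasSum_val h ?_
  rw [← tsum_mul_left, ← tsum_mul_left, poisSum3]
  refine tsum_congr fun z => ?_
  have hsum : w 0 + w 1 + w 2 + w 3 = 1 := by rw [← hw1, Fin.sum_univ_four]
  have ee : Real.exp (-(d * w 1 + d * w 2 + d * w 3)) = Real.exp (-d) * Real.exp (d * w 0) := by
    rw [← Real.exp_add]; congr 1; linear_combination -d * hsum
  simp only [ew]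
  rw [ee]
  ring

/-- A fixed number of copies of the mixture. -/
theorem fixed_mix3 (hw : ∀ i, 0 ≤ w i) (hw1 : ∑ i, w i = 1) (h0 : 0 ≤ μ1) (h0' : μ1 ≤ 1 / 2)
    (h1 : 0 ≤ μ2) (h1' : μ2 ≤ 1 / 2) (h2 : 0 ≤ ν) (h2' : ν ≤ 1 / 2) (κ : ℝ) (n : ℕ) :
    mo (mPhi κ) (power (mixNode w ![0, μ1, μ2, ν]) n)
      = ∑ y ∈ antidiagonal n, ∑ z ∈ antidiagonal y.2, ∑ u ∈ antidiagonal z.2,
          (n.factorial : ℝ)
            / ((y.1.factorial : ℝ) * z.1.factorial * u.1.factorial * u.2.factorial)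
            * w 0 ^ y.1 * w 1 ^ z.1 * w 2 ^ u.1 * w 3 ^ u.2 * nodeG κ μ1 μ2 ν z.1 u.1 u.2 := by
  rw [mo_power_mix3 hw hw1 h0 h0' h1 h1' h2 h2']
  simp only [quart, econv, tri, duo, ew, mul_sum, zero_add]
  refine sum_congr rfl fun y _ => sum_congr rfl fun z _ => sum_congr rfl fun u _ => ?_
  field_simp

end Window

end Vale.Agent.P154
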