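import Vale.Agent.P154.Window.Three.Level
import Vale.Agent.P154.Window.Garbling

/-!
Three reference lengths with a two-sided bound on the potential: one level, phases, limits.
-/

namespace Vale.Agent.P154

namespace Window

open Filter Topology

/-- The scalar inequality for one value of the information, for potentials between two levels. -/
def Scal3F (κ κ' d : ℝ) (T : ℝ → ℝ → ℝ → ℝ → ℝ → ℝ → ℝ) (ε lo hi X : ℝ) : Prop :=
  ∃ μ1 μ2 ν : ℝ, 0 < μ1 ∧ μ1 < μ2 ∧ μ2 < ν ∧ ν ≤ 1 / 2 ∧ (1 ≤ d * ν ^ 2 ∨ ν = 1 / 2) ∧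
    ∀ M1 M2 b u1 u2 Qs c : ℝ, 0 ≤ b → 0 ≤ u1 → u1 ≤ M1 → 0 ≤ u2 → u2 ≤ M2 →
      μ1 ^ 2 * M1 + μ2 ^ 2 * M2 + ν ^ 2 * b = X → M1 + M2 + b ≤ d →
      Lin3 d μ1 μ2 ν M1 M2 b u1 u2 Qs → Qs ≤ μ1 ^ 4 * M1 + μ2 ^ 4 * M2 + ν ^ 4 * b →
      cX X ≤ c → c ≤ 1 → lo ≤ X + κ * d * Qs → X + κ * d * Qs ≤ hi →
      T μ1 μ2 ν M1 M2 b ≤ X + κ' * (c * (μ1 ^ 4 * M1 + μ2 ^ 4 * M2 + ν ^ 4 * b))
        + (κ * d - κ' * c) * Qs - ε * X ^ 2

lemma Scal3.toF {κ κ' d ε lo hi X : ℝ} {T : ℝ → ℝ → ℝ → ℝ → ℝ → ℝ → ℝ}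
    (h : Scal3 κ κ' d T ε X) : Scal3F κ κ' d T ε lo hi X := by
  obtain ⟨μ1, μ2, ν, a, b, c, e, f, g⟩ := h
  exact ⟨μ1, μ2, ν, a, b, c, e, f, fun M1 M2 b u1 u2 Qs c b0 p0 p1 q0 q1 hX hs hl hq c0 c1 _ _ =>
    g M1 M2 b u1 u2 Qs c b0 p0 p1 q0 q1 hX hs hl hq c0 c1⟩

variable {η : Type} {M : Lik η} {κ κ' μ1 μ2 ν d s : ℝ}

/-- The inequality of one level in the general form. -/
theorem level3F_of_scal {p : ℕ → ℝ} {ε : ℝ} (hp : Law p d) (hd : 0 < d) (hM : Ok M) (hsw : Sw M)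
    (h1 : 0 < μ1) (h12 : μ1 < μ2) (h2ν : μ2 < ν) (hν : ν ≤ 1 / 2) (hs : s ≤ ν ^ 2)
    (hds : d * s ≤ 1)
    (hb : ∀ y, quad rc (M y 0) (M y 1) (M y 2) ≤ s * tot (M y 0) (M y 1) (M y 2) ^ 2)
    (hc : CC κ κ') (k0 : 0 ≤ κ) (k1 : κ ≤ 12 / 25) (k0' : 0 ≤ κ') (k1' : κ' ≤ 12 / 25)
    (T : ℝ → ℝ → ℝ → ℝ → ℝ → ℝ → ℝ)
    (hT : (∑' N, p N * mo (mPhi κ)
        (power (mixNode (wt' (tent3 μ1 μ2 ν M)) ![0, μ1, μ2, ν]) N))
      = T μ1 μ2 ν (d * wt' (tent3 μ1 μ2 ν M) 1) (d * wt' (tent3 μ1 μ2 ν M) 2)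
          (d * wt' (tent3 μ1 μ2 ν M) 3))
    (hgap : d * (1 - ∑' N, p N * mo mA
        (power (mixNode (wt' (tent3 μ1 μ2 ν M)) ![0, μ1, μ2, ν]) N)) ^ 2
      ≤ ∑' N, p N * wgap (mixNode (wt' (tent3 μ1 μ2 ν M)) ![0, μ1, μ2, ν]) N)
    (hscal : ∀ M1 M2 b u1 u2 Qs c : ℝ, 0 ≤ b → 0 ≤ u1 → u1 ≤ M1 → 0 ≤ u2 → u2 ≤ M2 →
      μ1 ^ 2 * M1 + μ2 ^ 2 * M2 + ν ^ 2 * b = d * mo mA M → M1 + M2 + b ≤ d →
      Lin3 d μ1 μ2 ν M1 M2 b u1 u2 Qs → Qs ≤ μ1 ^ 4 * M1 + μ2 ^ 4 * M2 + ν ^ 4 * b →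
      cX (d * mo mA M) ≤ c → c ≤ 1 → Qs = d * mo mQ M →
      T μ1 μ2 ν M1 M2 b ≤ d * mo mA M
        + κ' * (c * (μ1 ^ 4 * M1 + μ2 ^ 4 * M2 + ν ^ 4 * b))
        + (κ * d - κ' * c) * Qs - ε * (d * mo mA M) ^ 2)
    (hε : 0 ≤ ε) :
    mo (mPhi κ) (mix p M)
      ≤ d * mo mA M + κ * d ^ 2 * mo mQ M - ε * (d * mo mA M) ^ 2 := by
  have hbν : ∀ y, quad rc (M y 0) (M y 1) (M y 2) ≤ ν ^ 2 * tot (M y 0) (M y 1) (M y 2) ^ 2 :=
    fun y => le_trans (hb y) (mul_le_mul_of_nonneg_right hs (sq_nonneg _))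
  have hQ := ok_Q3 hM h1 h12 h2ν hν hbν
  set Q := mixNode (wt' (tent3 μ1 μ2 ν M)) ![0, μ1, μ2, ν] with hQdef
  set t := ∑' N, p N * mo mA (power Q N) with htdef
  have sA := summable_law_mo hp hQ dom_mA
  have t0 : 0 ≤ t := tsum_nonneg fun N => mul_nonneg (hp.nonneg N)
    ((power_ok Q hQ N).mo_nonneg fun _ _ _ => mA_nonneg)
  have t1 : t ≤ 1 := le_trans (sA.tsum_le_tsum (fun N => by
    have := mul_le_mul_of_nonneg_left (power_ok Q hQ N).mA_le_one (hp.nonneg N)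
    linarith) hp.total.summable) (le_of_eq hp.total.tsum_eq)
  obtain ⟨M1, M2, b, u1, u2, e1, e2, eb, b0, p0, p1, q0, q1, hsum, hX, hlin, hQS, hlev⟩ :=
    level_bound3 hp hd hM hsw h1 h12 h2ν hν hbν hc k0 k1 k0' hgap
  rw [hT, ← e1, ← e2, ← eb] at hlev
  rw [← e1, ← e2, ← eb] at hT
  have hnQ : 0 ≤ mo mQ M := hM.mo_nonneg fun _ _ _ => mQ_nonneg
  have hnA : 0 ≤ mo mA M := hM.mo_nonneg fun _ _ _ => mA_nonneg
  have hQA : mo mQ M ≤ s * mo mA M := by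
    have key := hasSum_le (fun y => ?_) (hM.summable_mom dom_mQ).hasSum
      ((hM.summable_mom dom_mA).hasSum.mul_left s)
    · rw [mo, mo]; linarith
    · simp only [row, mA, mQ]
      have h0 := tot_nonneg (hM.nonneg y 0) (hM.nonneg y 1) (hM.nonneg y 2)
      rcases eq_or_lt_of_le h0 with h | h
      · rw [← h]; simp
      · have hq : 0 ≤ quad rc (M y 0) (M y 1) (M y 2) := quad_nonneg
        rw [div_le_iff₀ (by positivity)]
        have := mul_le_mul_of_nonneg_left (hb y) hq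
        calc quad rc (M y 0) (M y 1) (M y 2) ^ 2
            ≤ quad rc (M y 0) (M y 1) (M y 2) * (s * tot (M y 0) (M y 1) (M y 2) ^ 2) := by linarith
          _ = s * (quad rc (M y 0) (M y 1) (M y 2) / tot (M y 0) (M y 1) (M y 2))
              * tot (M y 0) (M y 1) (M y 2) ^ 3 := by field_simp
  have ht : t ≤ 2 * (d * mo mA M) := by
    have g1 := hscal M1 M2 b u1 u2 (d * mo mQ M) 1 b0 p0 p1 q0 q1 hX hsum hlin hQS
      (le_trans (cX_le (X := d * mo mA M) (t := 0) le_rfl (mul_nonneg two_pos.le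
        (mul_nonneg hd.le hnA)) zero_le_one) (by norm_num)) le_rfl rfl
    have g2 : t ≤ T μ1 μ2 ν M1 M2 b := by
      rw [← hT]
      refine sA.tsum_le_tsum (fun N => mul_le_mul_of_nonneg_left ?_ (hp.nonneg N))
        (summable_law_mo hp hQ (dom_mPhi κ))
      rw [mo_mPhi (power_ok Q hQ N)]
      have := mul_nonneg k0 ((power_ok Q hQ N).mo_nonneg (g := mQ) fun _ _ _ => mQ_nonneg)
      linarith
    have g3 : d * (d * mo mQ M) ≤ d * mo mA M := by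
      have := mul_le_mul_of_nonneg_left hQA (mul_nonneg hd.le hd.le)
      have g4 := mul_le_mul_of_nonneg_right hds (mul_nonneg hd.le hnA)
      linarith
    have g5 : μ1 ^ 4 * M1 + μ2 ^ 4 * M2 + ν ^ 4 * b ≤ ν ^ 2 * (d * mo mA M) := by
      rw [← hX]
      have a1 : μ1 ^ 2 ≤ ν ^ 2 := pow_le_pow_left₀ h1.le (h12.trans h2ν).le 2
      have a2 : μ2 ^ 2 ≤ ν ^ 2 := pow_le_pow_left₀ (h1.trans h12).le h2ν.le 2
      have := mul_le_mul_of_nonneg_left a1 (mul_nonneg (sq_nonneg μ1) (le_trans p0 p1))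
      have := mul_le_mul_of_nonneg_left a2 (mul_nonneg (sq_nonneg μ2) (le_trans q0 q1))
      linarith
    have g6 : ν ^ 2 ≤ 1 / 4 := by nlinarith
    have g7 := mul_le_mul_of_nonneg_left g3 k0
    have g8 := mul_le_mul_of_nonneg_left g5 k0'
    have hXn : 0 ≤ d * mo mA M := mul_nonneg hd.le hnA
    have g9 := mul_le_mul_of_nonneg_right g6 hXn
    have g10 := mul_le_mul_of_nonneg_left g9 k0'
    have g11 := mul_le_mul_of_nonneg_right k1 hXn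
    have g12 := mul_le_mul_of_nonneg_right k1' hXn
    have g13 := mul_nonneg hε (sq_nonneg (d * mo mA M))
    have g14 := mul_nonneg k0' (mul_nonneg hd.le hnQ)
    linarith
  have g1 := hscal M1 M2 b u1 u2 (d * mo mQ M) ((1 - t) ^ 2) b0 p0 p1 q0 q1 hX hsum hlin hQS
    (cX_le t0 ht t1) (pow_le_one₀ (by linarith) (by linarith)) rfl
  linarith

/-- One level of a Poisson family. -/
theorem level3F_poisson {ε : ℝ} (hd : 0 < d) (hM : Ok M) (hsw : Sw M) (hds : d * s ≤ 1)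
    (hs4 : s ≤ 1 / 4)
    (hb : ∀ y, quad rc (M y 0) (M y 1) (M y 2) ≤ s * tot (M y 0) (M y 1) (M y 2) ^ 2)
    (hc : CC κ κ') (k0 : 0 ≤ κ) (k1 : κ ≤ 12 / 25) (k0' : 0 ≤ κ') (k1' : κ' ≤ 12 / 25)
    {lo hi : ℝ} (hε : 0 ≤ ε) (hlo : lo ≤ d * mo mA M + κ * d ^ 2 * mo mQ M)
    (hhi : d * mo mA M + κ * d ^ 2 * mo mQ M ≤ hi)
    (hS : Scal3F κ κ' d (poisSum3 κ) ε lo hi (d * mo mA M)) :
    mo (mPhi κ) (mix (poissonLaw d) M)
      ≤ d * mo mA M + κ * d ^ 2 * mo mQ M - ε * (d * mo mA M) ^ 2 := by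
  obtain ⟨μ1, μ2, ν, h1, h12, h2ν, hν, hdν, hscal⟩ := hS
  have hsν : s ≤ ν ^ 2 := by
    rcases hdν with h | h
    · exact le_of_mul_le_mul_left (le_trans hds h) hd
    · rw [h]; linarith
  have hbν : ∀ y, quad rc (M y 0) (M y 1) (M y 2) ≤ ν ^ 2 * tot (M y 0) (M y 1) (M y 2) ^ 2 :=
    fun y => le_trans (hb y) (mul_le_mul_of_nonneg_right hsν (sq_nonneg _))
  have hSp := tent3_spread hM h1 h12 h2ν hν hbν
  refine level3F_of_scal (poisson_law hd) hd hM hsw h1 h12 h2ν hν hsν hds hb hc k0 k1 k0' k1'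
    (poisSum3 κ) ?_ (wgap_poisson hd (ok_Q3 hM h1 h12 h2ν hν hbν)) ?_ hε
  · exact (poisson_mix3 hSp.wt_nonneg (hSp.wt_sum hM) h1.le (by linarith) (by linarith)
    (by linarith) (by linarith) hν κ d).tsum_eq
  · intro M1 M2 b u1 u2 Qs c b0 p0 p1 q0 q1 hX hsum hlin hQS c0 c1 hQ
    refine hscal M1 M2 b u1 u2 Qs c b0 p0 p1 q0 q1 hX hsum hlin hQS c0 c1 ?_ ?_ <;>
      (rw [hQ]; ring_nf at hlo hhi ⊢; linarith)

variable {l ε lo hi : ℝ}

/-- The potential that the recursion sees at one depth. -/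
noncomputable def lev (κ d l : ℝ) (p : ℕ → ℝ) (n : ℕ) : ℝ :=
  d * l ^ 2 * info p l n + κ * (d * l ^ 2) ^ 2 * mo mQ (tab p l n)

lemma drop3F_poisson (hd : 0 < d) (h0 : -(1 / 2) ≤ l) (h1 : l ≤ 1 / 2) (hdl : d * l ^ 2 ≤ 1)
    (hc : CC κ κ') (k0 : 0 ≤ κ) (k1 : κ ≤ 12 / 25) (k0' : 0 ≤ κ') (k1' : κ' ≤ 12 / 25)
    (hε : 0 ≤ ε) (n : ℕ) (hlo : lo ≤ lev κ d l (poissonLaw d) n)
    (hhi : lev κ d l (poissonLaw d) n ≤ hi)
    (hS : Scal3F κ κ' d (poisSum3 κ) ε lo hi (d * l ^ 2 * info (poissonLaw d) l n)) :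
    Drop κ ε (poissonLaw d) d l n := by
  have hk := tab_ok (poisson_law hd) h0 (by linarith : l ≤ 1) n
  have hl2 : l ^ 2 ≤ 1 / 4 := by nlinarith
  have e : d * mo mA (shift l (tab (poissonLaw d) l n)) = d * l ^ 2 * info (poissonLaw d) l n := by
    rw [shift_mA, info]; ring
  have e2 : κ * d ^ 2 * mo mQ (shift l (tab (poissonLaw d) l n))
      = κ * (d * l ^ 2) ^ 2 * mo mQ (tab (poissonLaw d) l n) := by
    rw [shift_mQ]; ring
  unfold lev at hlo hhi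
  have h := level3F_poisson (lo := lo) (hi := hi) hd (shift_ok_adm h0 (by linarith : l ≤ 1) hk)
    (shift_sw l (tab_sw _ l n)) hdl hl2 (fun y => shift_small l hk y) hc k0 k1 k0' k1' hε
    (by rw [e, e2]; exact hlo) (by rw [e, e2]; exact hhi) (by rw [e]; exact hS)
  rw [e, e2] at h
  unfold Drop
  rw [pot, mo_tab_succ]
  exact h

lemma mQ_le_info (h : Ok M) : mo mQ M ≤ mo mA M := by
  have := hasSum_le (fun y => mQ_le_mA (h.nonneg y 0) (h.nonneg y 1) (h.nonneg y 2))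
    (h.summable_mom dom_mQ).hasSum (h.summable_mom dom_mA).hasSum
  rw [mo, mo]; simp only [row] at *; linarith

variable {p : ℕ → ℝ} {dm B : ℝ}

lemma lev_le_pot (hp : Law p dm) (h0 : -(1 / 2) ≤ l) (h1 : l ≤ 1 / 2) (hd : 0 ≤ d)
    (hdl : d * l ^ 2 ≤ 1) (k0 : 0 ≤ κ) (n : ℕ) : lev κ d l p n ≤ pot κ p l n := by
  have ok := tab_ok hp h0 (by linarith : l ≤ 1)
  have a0 : 0 ≤ info p l n := (ok n).mo_nonneg fun _ _ _ => mA_nonneg
  have Q0 : 0 ≤ mo mQ (tab p l n) := (ok n).mo_nonneg fun _ _ _ => mQ_nonneg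
  rw [pot_eq ⟨ok 0, ok⟩ κ n, lev]
  have g1 := mul_le_mul_of_nonneg_right hdl a0
  have g2 := mul_le_mul_of_nonneg_left
    (pow_le_one₀ (n := 2) (mul_nonneg hd (sq_nonneg l)) hdl) (mul_nonneg k0 Q0)
  linarith

lemma lev_mono {κ0 : ℝ} (hp : Law p dm) (h0 : -(1 / 2) ≤ l) (h1 : l ≤ 1 / 2) (hk : κ0 ≤ κ)
    (n : ℕ) : lev κ0 d l p n ≤ lev κ d l p n := by
  have ok := tab_ok hp h0 (by linarith : l ≤ 1)
  have Q0 : 0 ≤ mo mQ (tab p l n) := (ok n).mo_nonneg fun _ _ _ => mQ_nonneg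
  have := mul_le_mul_of_nonneg_right hk (mul_nonneg (sq_nonneg (d * l ^ 2)) Q0)
  unfold lev
  linarith

/-- While the potential stays above a level and every step decreases it, the level is passed;
the upper level is kept. -/
theorem lev_pass (hp : Law p dm) (h0 : -(1 / 2) ≤ l) (h1 : l ≤ 1 / 2) (hd : 0 ≤ d)
    (hdl : d * l ^ 2 ≤ 1) (k0 : 0 ≤ κ) (e0 : 0 < ε) (e1 : ε ≤ 1) (hlo : 0 < lo) {n0 : ℕ}
    (hstart : lev κ d l p n0 ≤ hi)
    (hdrop : ∀ n, lo ≤ lev κ d l p n → lev κ d l p n ≤ hi → Drop κ ε p d l n) :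
    ∃ n, lev κ d l p n < lo := by
  by_contra hcon
  push_neg at hcon
  have ok := tab_ok hp h0 (by linarith : l ≤ 1)
  have r0 : 0 ≤ d * l ^ 2 := mul_nonneg hd (sq_nonneg l)
  have nn : ∀ n, 0 ≤ info p l n := fun n => (ok n).mo_nonneg fun _ _ _ => mA_nonneg
  have below : ∀ j, lev κ d l p (n0 + j) ≤ hi := by
    intro j
    induction j with
    | zero => exact hstart
    | succ j ih =>
      have hD := hdrop _ (hcon _) ih
      unfold Drop at hD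
      have g := lev_le_pot hp h0 h1 hd hdl k0 (n0 + j + 1)
      have g2 : 0 ≤ ε * (d * l ^ 2 * info p l (n0 + j)) ^ 2 := by positivity
      unfold lev at ih ⊢
      unfold lev at g
      rw [← add_assoc]
      linarith
  set c := lo / (1 + κ) with hc
  have hk : 0 < 1 + κ := by linarith
  have cpos : 0 < c := div_pos hlo hk
  have low : ∀ j, c ≤ d * l ^ 2 * info p l (n0 + j) := fun j => by
    have hQ : mo mQ (tab p l (n0 + j)) ≤ info p l (n0 + j) := mQ_le_info (ok _)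
    have g1 : (d * l ^ 2) ^ 2 * mo mQ (tab p l (n0 + j)) ≤ d * l ^ 2 * info p l (n0 + j) := by
      calc (d * l ^ 2) ^ 2 * mo mQ (tab p l (n0 + j))
          ≤ (d * l ^ 2) ^ 2 * info p l (n0 + j) := mul_le_mul_of_nonneg_left hQ (sq_nonneg _)
        _ ≤ 1 * (d * l ^ 2) * info p l (n0 + j) := by
            rw [sq]; gcongr; exact nn _
        _ = _ := by ring
    have h := hcon (n0 + j)
    have g2 := mul_le_mul_of_nonneg_left g1 k0
    unfold lev at h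
    rw [hc, div_le_iff₀ hk]
    linarith
  have step : ∀ j, lev κ d l p (n0 + (j + 1)) ≤ lev κ d l p (n0 + j) - ε * c ^ 2 := fun j => by
    have hD := hdrop _ (hcon _) (below j)
    unfold Drop at hD
    have g := lev_le_pot hp h0 h1 hd hdl k0 (n0 + j + 1)
    have g2 := mul_le_mul_of_nonneg_left (pow_le_pow_left₀ cpos.le (low j) 2) e0.le
    unfold lev at g ⊢
    rw [← add_assoc]
    linarith
  have bound : ∀ j : ℕ, lev κ d l p (n0 + j) ≤ hi - j * (ε * c ^ 2) := by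
    intro j
    induction j with
    | zero => simpa using hstart
    | succ j ih => push_cast; have := step j; linarith
  have hpos : 0 < ε * c ^ 2 := by positivity
  obtain ⟨j, hj⟩ := exists_nat_gt (hi / (ε * c ^ 2))
  rw [div_lt_iff₀ hpos] at hj
  have := bound j
  have := hcon (n0 + j)
  linarith

/-- The last phase, from a bound on the potential that the recursion sees. -/
theorem nonrec_of_lev (hp : Law p dm) (h0 : -(1 / 2) ≤ l) (h1 : l ≤ 1 / 2) (hd : 0 ≤ d)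
    (hdl : d * l ^ 2 ≤ 1) (k0 : 0 ≤ κ) (e0 : 0 < ε) (e1 : ε ≤ 1) {n0 : ℕ}
    (hstart : lev κ d l p n0 ≤ B)
    (hdrop : ∀ n, lev κ d l p n ≤ B → Drop κ ε p d l n) : Nonreconstruction p l := by
  have hD := hdrop n0 hstart
  unfold Drop at hD
  have g2 : 0 ≤ ε * (d * l ^ 2 * info p l n0) ^ 2 := by positivity
  unfold lev at hstart
  refine nonrec_of_drop hp h0 h1 hd hdl k0 e0 e1 B (n0 := n0 + 1) (by linarith) fun n hn =>
    hdrop n (le_trans (lev_le_pot hp h0 h1 hd hdl k0 n) hn)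

end Window

end Vale.Agent.P154
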