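import Vale.Agent.P154.Window.Three.ScalarDataG
import Vale.Agent.P154.Window.Three.ScalarPoly
import Vale.Agent.P154.Window.RadixMask
import Vale.Agent.P154.Window.ScalarListsData

/-!
Kernel check of one cell for at least four Poisson children below a small potential.
-/

namespace Vale.Agent.P154

namespace Window

theorem cellG_8_shape : cellG_8.chkShape = true := by decide +kernel

theorem cellG_8_poly : cellG_8.chkPoly 744 0 = true := by
  exact Ex.goodR_of_posR (by decide +kernel)

theorem cellG_8_table : chkTab3 cellG_8.p lxsData lysData cellG_8.tab = true := by decide +kernel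

theorem cellG_8_valid : cellG_8.Valid :=
  ⟨cellG_8_shape, ⟨744, 0, cellG_8_poly⟩,
    ⟨lxsData, lysData, lxsData_ok, lysData_ok, cellG_8_table⟩⟩

end Window

end Vale.Agent.P154
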