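import Vale.Agent.P154.Window.Three.ScalarCell
import Vale.Agent.P154.Window.ScalarSlack
import Vale.Agent.P154.Window.ScalarLists
import Vale.Agent.P154.Window.Three.Filter
import Vale.Agent.P154.Window.Order
import Vale.Agent.P154.Window.Monotone
import Vale.Agent.P154.Window.Three.ScalarCheckG0
import Vale.Agent.P154.Window.Three.ScalarCheckG1
import Vale.Agent.P154.Window.Three.ScalarCheckG2
import Vale.Agent.P154.Window.Three.ScalarCheckG3
import Vale.Agent.P154.Window.Three.ScalarCheckG4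
import Vale.Agent.P154.Window.Three.ScalarCheckG5
import Vale.Agent.P154.Window.Three.ScalarCheckG6
import Vale.Agent.P154.Window.Three.ScalarCheckG7
import Vale.Agent.P154.Window.Three.ScalarCheckG8
import Vale.Agent.P154.Window.Three.ScalarCheckG9
import Vale.Agent.P154.Window.Three.ScalarCheckG10

/-!
Poisson means around four: below a small potential every step decreases it.
-/

namespace Vale.Agent.P154

namespace Window

/-- A cell supplies the inequality with the upper filter. -/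
lemma scal3F_of_cell {C : Cell3} (hv : C.Valid) (hκ : C.kap = 3 / 10) (hκ' : C.kap' = 3 / 10)
    (hd0 : C.dR = 4) (hnu : C.nu = 1 / 2) (hl : C.ml = 0)
    (hh : C.mh = 0 ∨ (C.fh : ℝ) / C.fd = 4 / 25)
    {d X : ℝ} (hd : 4 ≤ d) (hX0 : 0 < X) (hlo : C.lo ≤ X) (hhi : X ≤ C.hi) :
    Scal3F (3 / 10) (3 / 10) d (poisSum3 (3 / 10)) (1 / 1000) 0 (4 / 25) X := by
  have hF := C.facts hv.shape
  refine ⟨C.mu1, C.mu2, C.nu, hF.h1, hF.h12, hF.h23, hF.hnu, Or.inr hnu, ?_⟩
  intro M1 M2 b u1 u2 Qs c hb hu1 hu1' hu2 hu2' hX _ hL hQ hc hc1 _ hV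
  have h := Cell3.cell3_poisson hv hX0 hlo hhi (le_trans hu1 hu1') (le_trans hu2 hu2') hb hX
    (by rw [hd0]; exact hd) hL hQ hc hc1 (hh.imp id fun e => by rw [e, hκ]; exact hV) (Or.inl hl)
  rw [hκ, hκ'] at h
  linarith

/-- The inequality below the level `4/25` for at least four Poisson children. -/
theorem scal3F_tail {d X : ℝ} (hd : 4 ≤ d) (h0 : 0 ≤ X) (h1 : X ≤ 4 / 25) :
    Scal3F (3 / 10) (3 / 10) d (poisSum3 (3 / 10)) (1 / 1000) 0 (4 / 25) X := by
  rcases eq_or_lt_of_le h0 with hz | hX0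
  · rw [← hz]
    exact (scal3_zero_poisson (3 / 10) (3 / 10) (by linarith) (by norm_num) _ (1 / 8) (1 / 4) (1 / 2)
      (by norm_num) (by norm_num) (by norm_num) le_rfl (Or.inr rfl)).toF
  rcases le_or_gt X (300 / 10000) with g0 | g0
  · exact scal3F_of_cell cellG_0_valid (by norm_num [cellG_0, Cell3.kap, TPar.kap])
      (by norm_num [cellG_0, Cell3.kap']) (by norm_num [cellG_0, Cell3.dR])
      (by norm_num [cellG_0, Cell3.nu, TPar3.nu]) rfl (Or.inl rfl) hd hX0
      (by norm_num [cellG_0, Cell3.lo]; linarith) (by norm_num [cellG_0, Cell3.hi]; linarith)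
  rcases le_or_gt X (700 / 10000) with g1 | g1
  · exact scal3F_of_cell cellG_1_valid (by norm_num [cellG_1, Cell3.kap, TPar.kap])
      (by norm_num [cellG_1, Cell3.kap']) (by norm_num [cellG_1, Cell3.dR])
      (by norm_num [cellG_1, Cell3.nu, TPar3.nu]) rfl (Or.inl rfl) hd hX0
      (by norm_num [cellG_1, Cell3.lo]; linarith) (by norm_num [cellG_1, Cell3.hi]; linarith)
  rcases le_or_gt X (920 / 10000) with g2 | g2
  · exact scal3F_of_cell cellG_2_valid (by norm_num [cellG_2, Cell3.kap, TPar.kap])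
      (by norm_num [cellG_2, Cell3.kap']) (by norm_num [cellG_2, Cell3.dR])
      (by norm_num [cellG_2, Cell3.nu, TPar3.nu]) rfl (Or.inl rfl) hd hX0
      (by norm_num [cellG_2, Cell3.lo]; linarith) (by norm_num [cellG_2, Cell3.hi]; linarith)
  rcases le_or_gt X (1170 / 10000) with g3 | g3
  · exact scal3F_of_cell cellG_3_valid (by norm_num [cellG_3, Cell3.kap, TPar.kap])
      (by norm_num [cellG_3, Cell3.kap']) (by norm_num [cellG_3, Cell3.dR])
      (by norm_num [cellG_3, Cell3.nu, TPar3.nu]) rfl (Or.inl rfl) hd hX0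
      (by norm_num [cellG_3, Cell3.lo]; linarith) (by norm_num [cellG_3, Cell3.hi]; linarith)
  rcases le_or_gt X (1404 / 10000) with g4 | g4
  · exact scal3F_of_cell cellG_4_valid (by norm_num [cellG_4, Cell3.kap, TPar.kap])
      (by norm_num [cellG_4, Cell3.kap']) (by norm_num [cellG_4, Cell3.dR])
      (by norm_num [cellG_4, Cell3.nu, TPar3.nu]) rfl (Or.inl rfl) hd hX0
      (by norm_num [cellG_4, Cell3.lo]; linarith) (by norm_num [cellG_4, Cell3.hi]; linarith)
  rcases le_or_gt X (1480 / 10000) with g5 | g5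
  · exact scal3F_of_cell cellG_5_valid (by norm_num [cellG_5, Cell3.kap, TPar.kap])
      (by norm_num [cellG_5, Cell3.kap']) (by norm_num [cellG_5, Cell3.dR])
      (by norm_num [cellG_5, Cell3.nu, TPar3.nu]) rfl (Or.inl rfl) hd hX0
      (by norm_num [cellG_5, Cell3.lo]; linarith) (by norm_num [cellG_5, Cell3.hi]; linarith)
  rcases le_or_gt X (1492 / 10000) with g6 | g6
  · exact scal3F_of_cell cellG_6_valid (by norm_num [cellG_6, Cell3.kap, TPar.kap])
      (by norm_num [cellG_6, Cell3.kap']) (by norm_num [cellG_6, Cell3.dR])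
      (by norm_num [cellG_6, Cell3.nu, TPar3.nu]) rfl (Or.inr (by norm_num [cellG_6])) hd hX0
      (by norm_num [cellG_6, Cell3.lo]; linarith) (by norm_num [cellG_6, Cell3.hi]; linarith)
  rcases le_or_gt X (1506 / 10000) with g7 | g7
  · exact scal3F_of_cell cellG_7_valid (by norm_num [cellG_7, Cell3.kap, TPar.kap])
      (by norm_num [cellG_7, Cell3.kap']) (by norm_num [cellG_7, Cell3.dR])
      (by norm_num [cellG_7, Cell3.nu, TPar3.nu]) rfl (Or.inr (by norm_num [cellG_7])) hd hX0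
      (by norm_num [cellG_7, Cell3.lo]; linarith) (by norm_num [cellG_7, Cell3.hi]; linarith)
  rcases le_or_gt X (1520 / 10000) with g8 | g8
  · exact scal3F_of_cell cellG_8_valid (by norm_num [cellG_8, Cell3.kap, TPar.kap])
      (by norm_num [cellG_8, Cell3.kap']) (by norm_num [cellG_8, Cell3.dR])
      (by norm_num [cellG_8, Cell3.nu, TPar3.nu]) rfl (Or.inr (by norm_num [cellG_8])) hd hX0
      (by norm_num [cellG_8, Cell3.lo]; linarith) (by norm_num [cellG_8, Cell3.hi]; linarith)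
  rcases le_or_gt X (1550 / 10000) with g9 | g9
  · exact scal3F_of_cell cellG_9_valid (by norm_num [cellG_9, Cell3.kap, TPar.kap])
      (by norm_num [cellG_9, Cell3.kap']) (by norm_num [cellG_9, Cell3.dR])
      (by norm_num [cellG_9, Cell3.nu, TPar3.nu]) rfl (Or.inr (by norm_num [cellG_9])) hd hX0
      (by norm_num [cellG_9, Cell3.lo]; linarith) (by norm_num [cellG_9, Cell3.hi]; linarith)
  exact scal3F_of_cell cellG_10_valid (by norm_num [cellG_10, Cell3.kap, TPar.kap])
    (by norm_num [cellG_10, Cell3.kap']) (by norm_num [cellG_10, Cell3.dR])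
    (by norm_num [cellG_10, Cell3.nu, TPar3.nu]) rfl (Or.inr (by norm_num [cellG_10])) hd hX0
    (by norm_num [cellG_10, Cell3.lo]; linarith) (by norm_num [cellG_10, Cell3.hi]; linarith)

variable {κ κ' ε lo hi d l : ℝ}

/-- Fewer than four children, with the data of four. -/
lemma drop3F_poisson_small (hd : 0 < d) (hd4 : d < 4) (h0 : -(1 / 2) ≤ l) (h1 : l ≤ 1 / 2)
    (hc : CC κ κ') (k0 : 0 ≤ κ) (k1 : κ ≤ 12 / 25) (k0' : 0 ≤ κ') (k1' : κ' ≤ 12 / 25)
    (hε : 0 ≤ ε) (n : ℕ) (hlo : lo ≤ lev κ 4 l (poissonLaw d) n)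
    (hhi : lev κ 4 l (poissonLaw d) n ≤ hi)
    (hS : Scal3F κ κ' 4 (poisSum3 κ) ε lo hi (4 * l ^ 2 * info (poissonLaw d) l n)) :
    Drop κ ε (poissonLaw d) 4 l n := by
  have hk := tab_ok (poisson_law hd) h0 (by linarith : l ≤ 1) n
  have hl2 : l ^ 2 ≤ 1 / 4 := by nlinarith
  have hMok := shift_ok_adm h0 (by linarith : l ≤ 1) hk
  have e : 4 * mo mA (shift l (tab (poissonLaw d) l n)) = 4 * l ^ 2 * info (poissonLaw d) l n := by
    rw [shift_mA, info]; ring
  have e2 : κ * (4 : ℝ) ^ 2 * mo mQ (shift l (tab (poissonLaw d) l n))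
      = κ * (4 * l ^ 2) ^ 2 * mo mQ (tab (poissonLaw d) l n) := by
    rw [shift_mQ]; ring
  unfold lev at hlo hhi
  have h := le_trans (mix_poisson_mono k0 hd hd4 hMok)
    (level3F_poisson (d := 4) (s := l ^ 2) (lo := lo) (hi := hi) (by norm_num) hMok
      (shift_sw l (tab_sw _ l n)) (by linarith) hl2 (fun y => shift_small l hk y) hc k0 k1 k0' k1' hε
      (by rw [e, e2]; exact hlo) (by rw [e, e2]; exact hhi) (by rw [e]; exact hS))
  rw [e, e2] at h
  unfold Drop
  rw [pot, mo_tab_succ]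
  exact h

/-- One depth with a small potential at a stronger parameter and mean is enough. -/
theorem nonrec_poisson_of_reach {D l0 : ℝ} (hd : 0 < d) (hD : d ≤ D) (a0 : -(1 / 2) ≤ l0)
    (a1 : l0 < 0) (h0 : l0 ≤ l) (h1 : l ≤ 0) (hdl : d * l ^ 2 ≤ 1)
    (hreach : ∃ n, mo (mPhi (3 / 10)) (tab (poissonLaw D) l0 n) ≤ 4 / 25) :
    Nonreconstruction (poissonLaw d) l := by
  obtain ⟨n0, hn0⟩ := hreach
  have hp := poisson_law hd
  have hl : -(1 / 2) ≤ l := le_trans a0 h0
  have hl' : l ≤ 1 / 2 := by linarith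
  have ok := tab_ok hp hl (by linarith : l ≤ 1)
  have hst : pot (3 / 10) (poissonLaw d) l n0 ≤ 4 / 25 :=
    le_trans ((below_poisson_ref hd hD a0 a1 h0 h1 n0).pot_le (by norm_num)) hn0
  have hcc : CC (3 / 10 : ℝ) (3 / 10) := cc_mid
  set e := max d 4 with he
  have e4 : 4 ≤ e := le_max_right _ _
  have hel : e * l ^ 2 ≤ 1 := by
    rcases max_cases d 4 with ⟨h, -⟩ | ⟨h, -⟩ <;> rw [he, h]
    · exact hdl
    · nlinarith
  have r0 : 0 ≤ e * l ^ 2 := mul_nonneg (by linarith) (sq_nonneg l)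
  refine nonrec_of_lev (κ := 3 / 10) (ε := 1 / 1000) (d := e) hp hl hl' (by linarith) hel
    (by norm_num) (by norm_num) (by norm_num) (n0 := n0) (B := 4 / 25)
    (le_trans (lev_le_pot hp hl hl' (by linarith) hel (by norm_num) n0) hst) fun n hn => ?_
  have hQ : 0 ≤ mo mQ (tab (poissonLaw d) l n) := (ok n).mo_nonneg fun _ _ _ => mQ_nonneg
  have hX0 : 0 ≤ e * l ^ 2 * info (poissonLaw d) l n :=
    mul_nonneg r0 ((ok n).mo_nonneg fun _ _ _ => mA_nonneg)
  have hq : 0 ≤ (3 / 10 : ℝ) * (e * l ^ 2) ^ 2 * mo mQ (tab (poissonLaw d) l n) :=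
    mul_nonneg (by positivity) hQ
  have hX1 : e * l ^ 2 * info (poissonLaw d) l n ≤ 4 / 25 := by
    have := hn; unfold lev at this; linarith
  have h00 : 0 ≤ lev (3 / 10) e l (poissonLaw d) n := by unfold lev; linarith
  rcases le_or_gt 4 d with g | g
  · rw [he, max_eq_left g] at hn hX0 hX1 h00 ⊢
    exact drop3F_poisson hd hl hl' hdl hcc (by norm_num) (by norm_num) (by norm_num) (by norm_num)
      (by norm_num) n h00 hn (scal3F_tail g hX0 hX1)
  · rw [he, max_eq_right g.le] at hn hX0 hX1 h00 ⊢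
    exact drop3F_poisson_small hd g hl hl' hcc (by norm_num) (by norm_num) (by norm_num)
      (by norm_num) (by norm_num) n h00 hn (scal3F_tail le_rfl hX0 hX1)

end Window

end Vale.Agent.P154
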