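import Vale.Agent.P154.Window.Three.ScalarPoly
import Vale.Agent.P154.Window.ScalarCell
import Vale.Agent.P154.Window.Three.Defs

/-!
Soundness of the test of one cell with three reference lengths.
-/

namespace Vale.Agent.P154

namespace Window

open Finset Filter Topology

/-- The weight of the counts `(i, j, l)` under three independent Poisson numbers. -/
noncomputable def pw3 (M1 M2 b : ℝ) (x : ℕ × ℕ × ℕ) : ℝ :=
  Real.exp (-(M1 + M2 + b)) * M1 ^ x.1 * M2 ^ x.2.1 * b ^ x.2.2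
    / ((x.1.factorial : ℝ) * x.2.1.factorial * x.2.2.factorial)

lemma pw3_nonneg {M1 M2 b : ℝ} (h1 : 0 ≤ M1) (h2 : 0 ≤ M2) (hb : 0 ≤ b) (x : ℕ × ℕ × ℕ) :
    0 ≤ pw3 M1 M2 b x := by
  unfold pw3; positivity

lemma pw3_sum (M1 M2 b : ℝ) : HasSum (pw3 M1 M2 b) 1 := by
  have hM := (exp_series M1).mul_left (Real.exp (-M1))
  rw [← Real.exp_add, neg_add_cancel, Real.exp_zero] at hM
  have hy := pw2_sum M2 b
  have hs : Summable fun x : ℕ × ℕ × ℕ =>
      Real.exp (-M1) * (M1 ^ x.1 / (x.1.factorial : ℝ)) * pw2 M2 b x.2.1 x.2.2 :=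
    summable_mul_of_summable_norm
      (f := fun i : ℕ => Real.exp (-M1) * (M1 ^ i / (i.factorial : ℝ)))
      (g := fun y : ℕ × ℕ => pw2 M2 b y.1 y.2) hM.summable.norm hy.summable.norm
  have h := hM.mul hy hs
  rw [one_mul] at h
  refine h.congr_fun fun x => ?_
  simp only [pw3, pw2]
  rw [show -(M1 + M2 + b) = -M1 + -(M2 + b) by ring, Real.exp_add]
  ring

lemma nodeG_bounds {κ μ1 μ2 ν : ℝ} (hκ : 0 ≤ κ) (a : 0 ≤ μ1) (a' : μ1 ≤ 1 / 2) (b : 0 ≤ μ2)
    (b' : μ2 ≤ 1 / 2) (c : 0 ≤ ν) (c' : ν ≤ 1 / 2) (i j l : ℕ) :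
    0 ≤ nodeG κ μ1 μ2 ν i j l ∧ nodeG κ μ1 μ2 ν i j l ≤ 1 + κ := by
  have h := pair_ok (pair_ok (power_ok _ (node_ok a a') i) (power_ok _ (node_ok b b') j))
    (power_ok _ (node_ok c c') l)
  refine ⟨h.mo_nonneg fun p q r hp hq hr => ?_, ?_⟩
  · have := mQ_nonneg hp hq hr
    have := mA_nonneg hp hq hr
    rw [mPhi]; positivity
  have hs := h.summable_mom (dom_mPhi κ)
  rw [nodeG, mo, div_le_iff₀ (by norm_num : (0 : ℝ) < 3)]
  have := hasSum_le (fun x => by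
    have := dom_mPhi κ _ _ _ (h.nonneg x 0) (h.nonneg x 1) (h.nonneg x 2)
    rw [abs_of_nonneg hκ] at this
    exact le_trans (le_abs_self _) this) hs.hasSum ((h.hasSum_mass).mul_left (1 + κ))
  linarith

namespace Cell3

variable (C : Cell3)

/-- The scaled bound at given counts. -/
def tabV (i j l : ℕ) : ℕ := ((C.tab.getD i []).getD j []).getD l C.topE

/-- The deficiency at given counts. -/
noncomputable def defV (i j l : ℕ) : ℝ := ((C.topE : ℝ) - (C.tabV i j l : ℝ)) / C.p.t.E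

/-- The weight. -/
noncomputable def kap : ℝ := C.p.t.kap
/-- The second weight. -/
noncomputable def kap' : ℝ := (C.kn : ℝ) / C.kd
/-- The first node. -/
noncomputable def mu1 : ℝ := C.p.t.mu
/-- The second node. -/
noncomputable def mu2 : ℝ := C.p.t.nu
/-- The third node. -/
noncomputable def nu : ℝ := C.p.nu
/-- Left end. -/
noncomputable def lo : ℝ := (C.a : ℝ) / C.den
/-- Right end. -/
noncomputable def hi : ℝ := (C.b : ℝ) / C.den
/-- The least mean degree. -/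
noncomputable def dR : ℝ := (C.dn : ℝ) / C.dd
/-- The factor coming from the two multipliers. -/
noncomputable def mR : ℝ := ((C.md : ℝ) + C.mh - C.ml) / C.md

structure Facts (C : Cell3) : Prop where
  good : C.p.good = true
  top : (C.topE : ℝ) / C.p.t.E = 1 + C.kap
  le_top : ∀ i j l, C.tabV i j l ≤ C.topE
  hE : (0 : ℝ) < C.p.t.E
  hk : 0 ≤ C.kap
  hk' : 0 ≤ C.kap'
  h1 : 0 < C.mu1
  h12 : C.mu1 < C.mu2
  h23 : C.mu2 < C.nu
  hnu : C.nu ≤ 1 / 2
  hab : C.a < C.b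
  hden : 0 < C.den
  hd : 0 < C.dR
  hmd : 0 < C.md
  hfd : 0 < C.fd
  hgam : C.gam = true → 2 * C.b ≤ C.den
  hn : C.b * (C.p.t.Q0 * C.p.t.Q0) < (C.n + 2) * (C.den * (C.p.t.P0 * C.p.t.P0))
  hm : 0 ≤ C.mR
  hcoef : C.kap' ≤ C.kap * C.dR * C.mR

lemma facts (h : C.chkShape = true) : Facts C := by
  simp only [chkShape, Bool.and_eq_true, decide_eq_true_eq, List.all_eq_true, Bool.or_eq_true,
    Bool.not_eq_true', Nat.ble_eq] at h
  obtain ⟨⟨⟨⟨⟨⟨⟨⟨⟨⟨hg, hmod⟩, htab⟩, hP⟩, h12⟩, h23⟩, hab, hden, hdd, hdn, hkd, hmd, hfd⟩, hgam⟩,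
    hn⟩, hml⟩, hco⟩ := h
  have hg' := hg
  simp only [TPar3.good, TPar.good, Bool.and_eq_true, decide_eq_true_eq] at hg'
  obtain ⟨⟨⟨⟨hcd, h0⟩, ⟨h1, h1'⟩⟩, hE⟩, h2, h2'⟩ := hg'
  have hQ0 : (0 : ℝ) < C.p.t.Q0 := by exact_mod_cast (show 0 < C.p.t.Q0 by omega)
  have hQ1 : (0 : ℝ) < C.p.t.Q1 := by exact_mod_cast (show 0 < C.p.t.Q1 by omega)
  have hQ2 : (0 : ℝ) < C.p.Q2 := by exact_mod_cast h2'
  have hE' : (0 : ℝ) < C.p.t.E := by exact_mod_cast hE
  have hcd' : (0 : ℝ) < C.p.t.cd := by exact_mod_cast hcd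
  have hdd' : (0 : ℝ) < C.dd := by exact_mod_cast hdd
  have hkd' : (0 : ℝ) < C.kd := by exact_mod_cast hkd
  have hmd' : (0 : ℝ) < C.md := by exact_mod_cast hmd
  have hml' : (C.ml : ℝ) ≤ C.md := by exact_mod_cast hml
  refine ⟨hg, ?_, fun i j l => ?_, hE', ?_, ?_, ?_, ?_, ?_, ?_, hab, hden, ?_, hmd, hfd,
    fun e => hgam.resolve_left (by simp [e]), hn, ?_, ?_⟩
  · have h := Nat.div_mul_cancel (Nat.dvd_of_mod_eq_zero hmod)
    have hR : (C.topE : ℝ) * C.p.t.cd = (C.p.t.E : ℝ) * ((C.p.t.cd : ℝ) + C.p.t.cn) := by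
      exact_mod_cast h
    rw [kap, TPar.kap]; field_simp; linear_combination hR
  · rw [tabV]
    by_cases hl : l < ((C.tab.getD i []).getD j []).length
    · rw [List.getD_eq_getElem _ _ hl]
      by_cases hj : j < (C.tab.getD i []).length
      · by_cases hi : i < C.tab.length
        · refine htab (C.tab.getD i []) ?_ ((C.tab.getD i []).getD j []) ?_ _ (List.getElem_mem hl)
          · rw [List.getD_eq_getElem _ _ hi]; exact List.getElem_mem hi
          · rw [List.getD_eq_getElem _ _ hj]; exact List.getElem_mem hj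
        · rw [List.getD_eq_default _ _ (Nat.not_lt.mp hi)] at hj; simp at hj
      · rw [List.getD_eq_default _ _ (Nat.not_lt.mp hj)] at hl; simp at hl
    · rw [List.getD_eq_default _ _ (Nat.not_lt.mp hl)]
  · rw [kap, TPar.kap]; positivity
  · rw [kap']; positivity
  · rw [mu1, TPar.mu]; exact div_pos (by exact_mod_cast hP) hQ0
  · rw [mu1, TPar.mu, mu2, TPar.nu, div_lt_div_iff₀ hQ0 hQ1]
    refine lt_of_pow_lt_pow_left₀ 2 (by positivity) ?_
    have : ((C.p.t.P0 * C.p.t.P0 * (C.p.t.Q1 * C.p.t.Q1) : ℕ) : ℝ)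
        < ((C.p.t.P1 * C.p.t.P1 * (C.p.t.Q0 * C.p.t.Q0) : ℕ) : ℝ) := by exact_mod_cast h12
    push_cast at this; linarith
  · rw [mu2, TPar.nu, Cell3.nu, TPar3.nu, div_lt_div_iff₀ hQ1 hQ2]
    refine lt_of_pow_lt_pow_left₀ 2 (by positivity) ?_
    have : ((C.p.t.P1 * C.p.t.P1 * (C.p.Q2 * C.p.Q2) : ℕ) : ℝ)
        < ((C.p.P2 * C.p.P2 * (C.p.t.Q1 * C.p.t.Q1) : ℕ) : ℝ) := by exact_mod_cast h23
    push_cast at this; linarith
  · rw [Cell3.nu, TPar3.nu, div_le_iff₀ hQ2]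
    have : (2 : ℝ) * C.p.P2 ≤ C.p.Q2 := by exact_mod_cast h2
    linarith
  · rw [dR]; exact div_pos (by exact_mod_cast hdn) hdd'
  · rw [mR]; exact div_nonneg (by linarith [(Nat.cast_nonneg C.mh : (0 : ℝ) ≤ C.mh)]) hmd'.le
  · rw [kap', kap, TPar.kap, dR, mR]
    have e : ((C.md + C.mh - C.ml : ℕ) : ℝ) = (C.md : ℝ) + C.mh - C.ml := by
      rw [Nat.cast_sub (by omega)]; push_cast; ring
    have hco' : ((C.kn * (C.p.t.cd * (C.dd * C.md)) : ℕ) : ℝ)
        ≤ ((C.p.t.cn * C.dn * (C.md + C.mh - C.ml) * C.kd : ℕ) : ℝ) := by exact_mod_cast hco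
    simp only [Nat.cast_mul, e] at hco'
    rw [div_mul_div_comm, div_mul_div_comm, div_le_div_iff₀ hkd' (by positivity)]
    linarith

variable {C}

lemma defV_nonneg (hF : Facts C) (i j l : ℕ) : 0 ≤ C.defV i j l :=
  div_nonneg (sub_nonneg.mpr (by exact_mod_cast hF.le_top i j l)) hF.hE.le

lemma defV_out {i j l : ℕ}
    (h : C.tab.length ≤ i ∨ (C.tab.getD i []).length ≤ j
      ∨ ((C.tab.getD i []).getD j []).length ≤ l) :
    C.defV i j l = 0 := by
  have e : ((C.tab.getD i []).getD j []).length ≤ l := by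
    rcases h with h | h | h
    · rw [List.getD_eq_default _ _ h]; simp
    · rw [List.getD_eq_default _ _ h]; simp
    · exact h
  rw [defV, tabV, List.getD_eq_default _ _ e, sub_self, zero_div]

lemma nodeG_le_tab (hF : Facts C) {lxs lys : List (List (Cnt × ℕ))}
    (hx : chainL srt (cntL srt 0) lxs = true) (hy : chainL id (cntL id 0) lys = true)
    (ht : chkTab3 C.p lxs lys C.tab = true) (i j l : ℕ) :
    nodeG C.kap C.mu1 C.mu2 C.nu i j l ≤ 1 + C.kap - C.defV i j l := by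
  by_cases h : i < C.tab.length ∧ j < (C.tab.getD i []).length
      ∧ l < ((C.tab.getD i []).getD j []).length
  · obtain ⟨hi, hj, hl⟩ := h
    have := chkTab3_sound hF.good hx hy ht hi hj hl
    rw [defV, tabV, List.getD_eq_getElem _ _ hl, ← hF.top, ← sub_div]
    rw [List.getD_eq_getElem _ _ hl] at this
    simpa [Cell3.kap, Cell3.mu1, Cell3.mu2, Cell3.nu] using this
  · rw [defV_out (by
      simp only [not_and_or, not_lt] at h; exact h), sub_zero]
    exact (nodeG_bounds hF.hk hF.h1.le (by linarith [hF.h12, hF.h23, hF.hnu])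
      (by linarith [hF.h1, hF.h12]) (by linarith [hF.h23, hF.hnu])
      (by linarith [hF.h1, hF.h12, hF.h23]) hF.hnu i j l).2

/-- The deficiency sum. -/
noncomputable def hSum (C : Cell3) (M1 M2 b : ℝ) : ℝ :=
  ∑ i ∈ range C.tab.length, ∑ j ∈ range (C.tab.getD i []).length,
    ∑ l ∈ range ((C.tab.getD i []).getD j []).length,
      M1 ^ i / (i.factorial : ℝ)
        * (M2 ^ j / (j.factorial : ℝ) * (b ^ l / (l.factorial : ℝ) * C.defV i j l))

lemma ev_hH (z : ℕ → ℝ) : RE.ev z C.hH = C.hSum (z 1) (z 2) (z 3) := by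
  rw [hH, ev_hor, List.length_map, hSum]
  refine sum_congr rfl fun i hi => ?_
  have hi' := mem_range.mp hi
  rw [List.getD_eq_getElem _ _ (by simpa using hi'), List.getElem_map, ev_hor, List.length_map,
    ← List.getD_eq_getElem C.tab [] hi', sum_mul, sum_mul]
  refine sum_congr rfl fun j hj => ?_
  have hj' := mem_range.mp hj
  rw [List.getD_eq_getElem _ _ (by simpa using hj'), List.getElem_map, ev_hor, List.length_map,
    ← List.getD_eq_getElem (C.tab.getD i []) [] hj', sum_mul, sum_mul, sum_mul, sum_mul]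
  refine sum_congr rfl fun l hl => ?_
  have hl' := mem_range.mp hl
  rw [List.getD_eq_getElem _ _ (by simpa using hl'), List.getElem_map, defV, tabV,
    List.getD_eq_getElem _ _ hl']
  simp only [defic, m1v, m2v, bv, RE.ev, Nat.factorial_zero, Nat.cast_one, Nat.zero_add]
  push_cast
  ring

/-- The last coefficient, as a number. -/
noncomputable def lastR (C : Cell3) : ℝ := RE.ev (fun _ => 0) C.lastC

lemma ev_ehE (z : ℕ → ℝ) :
    RE.ev z C.ehE = (∑ i ∈ range (C.n + 1), (z 1 + (z 2 + z 3)) ^ i / (i.factorial : ℝ))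
      + C.lastR * ((z 1 + (z 2 + z 3)) ^ (C.n + 1) / ((C.n + 1).factorial : ℝ)) := by
  rw [ehE, ev_hor, List.length_append, List.length_replicate, List.length_singleton,
    sum_range_succ]
  congr 1
  · refine sum_congr rfl fun i hi => ?_
    rw [List.getD_append _ _ _ _ (by simpa using mem_range.mp hi),
      List.getD_replicate _ (mem_range.mp hi)]
    simp [RE.ev, m1v, m2v, bv, div_eq_mul_inv]
  · rw [List.getD_append_right _ _ _ _ (by simp), List.length_replicate, Nat.sub_self,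
      List.getD_cons_zero, show RE.ev z C.lastC = C.lastR from rfl]
    simp [RE.ev, m1v, m2v, bv, div_eq_mul_inv]; ring

/-- The information factor used in the cell. -/
noncomputable def gR (C : Cell3) (X : ℝ) : ℝ := if C.gam then (1 - 2 * X) ^ 2 else 0

/-- The linear part of the lower bound, as a number. -/
noncomputable def bR (C : Cell3) (M2 b : ℝ) : ℝ :=
  4 * C.mu1 ^ 2 * (C.mu2 ^ 2 - C.mu1 ^ 2) * M2
    + 4 * (C.mu2 ^ 2 - C.mu1 ^ 2) * (C.nu ^ 2 + C.mu1 ^ 2 - C.mu2 ^ 2) * b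

/-- The part entering squared, as a number. -/
noncomputable def aR (C : Cell3) (M1 M2 b : ℝ) : ℝ :=
  C.mu1 ^ 2 * M1 + (2 * C.mu1 ^ 2 - C.mu2 ^ 2) * M2
    + (C.nu ^ 2 + 2 * (C.mu1 ^ 2 - C.mu2 ^ 2)) * b

/-- The right side proved. -/
noncomputable def rhsR (C : Cell3) (X M1 M2 b : ℝ) : ℝ :=
  X + C.kap' * (C.gR X * (C.mu1 ^ 4 * M1 + C.mu2 ^ 4 * M2 + C.nu ^ 4 * b
      - (C.bR M2 b + C.aR M1 M2 b ^ 2 / C.dR)))
    + C.kap * C.dR * C.mR * (C.bR M2 b + C.aR M1 M2 b ^ 2 / C.dR)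
    + (C.mh : ℝ) / C.md * (X - (C.fh : ℝ) / C.fd)
    + (C.ml : ℝ) / C.md * ((C.fl : ℝ) / C.fd - X) - X ^ 2 / 1000

lemma ev_linA (z : ℕ → ℝ) : RE.ev z C.linA = C.aR (z 1) (z 2) (z 3) := by
  simp only [linA, s1E, s2E, s3E, m1v, m2v, bv, RE.ev_add, RE.ev_mul, RE.ev, aR, Cell3.mu1,
    Cell3.mu2, Cell3.nu, TPar.mu, TPar.nu, TPar3.nu]
  push_cast
  ring

lemma ev_linB (z : ℕ → ℝ) : RE.ev z C.linB = C.bR (z 2) (z 3) := by
  simp only [linB, s1E, s2E, s3E, m2v, bv, RE.ev_add, RE.ev_mul, RE.ev, bR, Cell3.mu1,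
    Cell3.mu2, Cell3.nu, TPar.mu, TPar.nu, TPar3.nu]
  push_cast
  ring

lemma ev_quartE (z : ℕ → ℝ) :
    RE.ev z C.quartE = C.mu1 ^ 4 * z 1 + C.mu2 ^ 4 * z 2 + C.nu ^ 4 * z 3 := by
  simp only [quartE, s1E, s2E, s3E, m1v, m2v, bv, RE.ev_add, RE.ev_mul, RE.ev, Cell3.mu1,
    Cell3.mu2, Cell3.nu, TPar.mu, TPar.nu, TPar3.nu]
  push_cast
  ring

lemma ev_gamE (z : ℕ → ℝ) : RE.ev z C.gamE = C.gR (z 0) := by
  rw [gamE, gR]
  split_ifs
  · simp only [xv, RE.ev_add, RE.ev_mul, RE.ev]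
    push_cast
    ring
  · simp [RE.ev]

lemma ev_rhsE (z : ℕ → ℝ) : RE.ev z C.rhsE = C.rhsR (z 0) (z 1) (z 2) (z 3) := by
  simp only [rhsE, RE.ev_add, RE.ev_mul, ev_gamE, ev_quartE, linL, coefE, ev_linA, ev_linB]
  simp only [xv, RE.ev, rhsR, dR, mR, kap', Cell3.kap, TPar.kap, div_div_eq_mul_div]
  push_cast
  ring

lemma rhs_le (hF : Facts C) {X M1 M2 b u1 u2 Qs c d : ℝ} (hhi : X ≤ C.hi)
    (hb0 : 0 ≤ b) (hM2 : 0 ≤ M2) (hd : C.dR ≤ d) (hL : Lin3 d C.mu1 C.mu2 C.nu M1 M2 b u1 u2 Qs)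
    (hQ : Qs ≤ C.mu1 ^ 4 * M1 + C.mu2 ^ 4 * M2 + C.nu ^ 4 * b) (hc : cX X ≤ c) (hc1 : c ≤ 1)
    (hH : C.mh = 0 ∨ X + C.kap * d * Qs ≤ (C.fh : ℝ) / C.fd)
    (hl : C.ml = 0 ∨ (C.fl : ℝ) / C.fd ≤ X + C.kap * d * Qs) :
    C.rhsR X M1 M2 b ≤ X + C.kap' * (c * (C.mu1 ^ 4 * M1 + C.mu2 ^ 4 * M2 + C.nu ^ 4 * b))
      + (C.kap * d - C.kap' * c) * Qs - X ^ 2 / 1000 := by
  set g := C.gR X with hg
  have hcX : 0 ≤ cX X := by rw [cX]; split_ifs <;> positivity
  have hg0 : 0 ≤ g := by rw [hg, gR]; split_ifs <;> positivity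
  have hgc : g ≤ c := by
    rw [hg, gR]
    split_ifs with h
    · have h2 := hF.hgam h
      have hden : (0 : ℝ) < C.den := by exact_mod_cast hF.hden
      have : 2 * X ≤ 1 := by
        have h2' : (2 : ℝ) * C.b ≤ C.den := by exact_mod_cast h2
        rw [hi, le_div_iff₀ hden] at hhi
        nlinarith
      rw [cX, if_pos this] at hc; exact hc
    · linarith
  have hd0 := hF.hd
  have hdp : 0 < d := lt_of_lt_of_le hd0 hd
  set B := C.bR M2 b with hB
  set A := C.aR M1 M2 b with hA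
  have s12 : C.mu1 ^ 2 ≤ C.mu2 ^ 2 := pow_le_pow_left₀ hF.h1.le hF.h12.le 2
  have s23 : C.mu2 ^ 2 ≤ C.nu ^ 2 := pow_le_pow_left₀ (by linarith [hF.h1, hF.h12]) hF.h23.le 2
  have hB0 : 0 ≤ B := by
    rw [hB, bR]
    have := sq_nonneg C.mu1
    exact add_nonneg (mul_nonneg (mul_nonneg (by positivity) (by linarith)) hM2)
      (mul_nonneg (mul_nonneg (by linarith) (by linarith)) hb0)
  have hQ' : B + A ^ 2 / d ≤ Qs := by
    have h := hL (A / d) (2 * C.mu1 ^ 2 - A / d) (2 * (C.mu2 ^ 2 - C.mu1 ^ 2) + A / d)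
    refine le_trans (le_of_eq ?_) h
    rw [hB, bR]
    have e : A ^ 2 / d = 2 * (A / d) * A - (A / d) ^ 2 * d := by field_simp; ring
    rw [e, hA, aR]
    ring
  have hk' := hF.hk'
  have hkm : 0 ≤ C.kap * C.mR := mul_nonneg hF.hk hF.hm
  have hg1 : C.kap' * g ≤ C.kap' * 1 := mul_le_mul_of_nonneg_left (by linarith) hk'
  have hco : 0 ≤ C.kap * d * C.mR - C.kap' * g := by
    have := mul_le_mul_of_nonneg_left hd hkm
    linarith [hF.hcoef]
  have k1 : (C.kap * C.dR * C.mR - C.kap' * g) * (B + A ^ 2 / C.dR)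
      ≤ (C.kap * d * C.mR - C.kap' * g) * Qs := by
    refine le_trans ?_ (mul_le_mul_of_nonneg_left hQ' hco)
    have p1 : 0 ≤ C.kap * C.mR * B * (d - C.dR) := mul_nonneg (mul_nonneg hkm hB0) (by linarith)
    have p2 : 0 ≤ C.kap' * g * (A ^ 2 / C.dR - A ^ 2 / d) :=
      mul_nonneg (mul_nonneg hk' hg0)
        (sub_nonneg.mpr (div_le_div_of_nonneg_left (sq_nonneg A) hd0 hd))
    have e1 : C.kap * C.dR * C.mR * (A ^ 2 / C.dR) = C.kap * C.mR * A ^ 2 := by field_simp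
    have e2 : C.kap * d * C.mR * (A ^ 2 / d) = C.kap * C.mR * A ^ 2 := by field_simp
    nlinarith
  have k2 : 0 ≤ C.kap' * (c - g) * (C.mu1 ^ 4 * M1 + C.mu2 ^ 4 * M2 + C.nu ^ 4 * b - Qs) :=
    mul_nonneg (mul_nonneg hk' (by linarith)) (by linarith)
  have hmd : (0 : ℝ) < C.md := by exact_mod_cast hF.hmd
  have k3 : (C.mh : ℝ) / C.md * (X + C.kap * d * Qs - (C.fh : ℝ) / C.fd) ≤ 0 := by
    rcases hH with h | h
    · simp [h]
    · exact mul_nonpos_of_nonneg_of_nonpos (by positivity) (by linarith)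
  have k4 : (C.ml : ℝ) / C.md * ((C.fl : ℝ) / C.fd - (X + C.kap * d * Qs)) ≤ 0 := by
    rcases hl with h | h
    · simp [h]
    · exact mul_nonpos_of_nonneg_of_nonpos (by positivity) (by linarith)
  have em : C.mR = 1 + (C.mh : ℝ) / C.md - (C.ml : ℝ) / C.md := by rw [mR]; field_simp
  rw [rhsR, ← hg, ← hB, ← hA]
  rw [em] at k1 ⊢
  linarith

/-- A passed coefficient test gives nonnegativity on the cell. -/
lemma poly_nonneg (hF : Facts C) (hp : ∃ bits r, C.chkPoly bits r = true) {x u v w : ℝ}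
    (hx0 : C.lo ≤ x) (hx1 : x ≤ C.hi) (hu : 0 ≤ u) (hv : 0 ≤ v) (hw : 0 ≤ w)
    (h1 : C.mu1 ^ 2 * u + C.mu2 ^ 2 * v + C.nu ^ 2 * w = 1) :
    0 ≤ RE.ev (fun i => if i = 0 then x else if i = 1 then x * u else if i = 2 then x * v
      else if i = 3 then x * w else 0) C.poly := by
  obtain ⟨bits, r, hp⟩ := hp
  have hden : (0 : ℝ) < C.den := by exact_mod_cast hF.hden
  have hg := hF.good
  simp only [TPar3.good, TPar.good, Bool.and_eq_true, decide_eq_true_eq] at hg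
  obtain ⟨⟨⟨⟨-, h0⟩, ⟨-, h1'⟩⟩, -⟩, -, h2'⟩ := hg
  have hP0 : 0 < C.p.t.P0 := Nat.pos_of_ne_zero fun h => by
    have := hF.h1; simp [mu1, TPar.mu, h] at this
  have hP1 : 0 < C.p.t.P1 := Nat.pos_of_ne_zero fun h => by
    have := hF.h12; have := hF.h1; simp [mu2, TPar.nu, h] at *; linarith
  have hP2 : 0 < C.p.P2 := Nat.pos_of_ne_zero fun h => by
    have := hF.h23; have := hF.h12; have := hF.h1; simp [Cell3.nu, TPar3.nu, h] at *; linarith
  have hm2 : 0 < C.mu1 ^ 2 := pow_pos hF.h1 2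
  have hlh : C.lo < C.hi := by
    rw [lo, hi, div_lt_div_iff_of_pos_right hden]; exact_mod_cast hF.hab
  let pt : ℝ → ℕ → ℝ := fun s i =>
    if i = 0 then x * (1 - s) + C.lo * s
    else if i = 1 then (x * (1 - s) + C.lo * s) * (u * (1 - s) + s / C.mu1 ^ 2)
    else if i = 2 then (x * (1 - s) + C.lo * s) * (v * (1 - s))
    else if i = 3 then (x * (1 - s) + C.lo * s) * (w * (1 - s)) else 0
  have key : ∀ s : ℝ, 0 < s → s < 1 → 0 ≤ RE.ev (pt s) C.poly := by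
    intro s s0 s1
    have hu' : 0 < u * (1 - s) + s / C.mu1 ^ 2 := by
      have := mul_nonneg hu (show (0 : ℝ) ≤ 1 - s by linarith)
      have := div_pos s0 hm2
      linarith
    have hv' : 0 ≤ v * (1 - s) := mul_nonneg hv (by linarith)
    have hw' : 0 ≤ w * (1 - s) := mul_nonneg hw (by linarith)
    have hxl : C.lo ≤ x * (1 - s) + C.lo * s := by nlinarith
    have hxh : x * (1 - s) + C.lo * s < C.hi := by nlinarith
    have e1 : C.mu1 ^ 2 * (u * (1 - s) + s / C.mu1 ^ 2) + C.mu2 ^ 2 * (v * (1 - s))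
        + C.nu ^ 2 * (w * (1 - s)) = 1 := by
      have : C.mu1 ^ 2 * (s / C.mu1 ^ 2) = s := mul_div_cancel₀ s hm2.ne'
      linear_combination this + (1 - s) * h1
    set X' := x * (1 - s) + C.lo * s with hX'
    set U := u * (1 - s) + s / C.mu1 ^ 2 with hU
    set V := v * (1 - s) with hV
    set W := w * (1 - s) with hW
    have hdx : 0 < (C.b : ℝ) - C.den * X' := by
      rw [hi, lt_div_iff₀ hden] at hxh; linarith
    let ρ : ℕ → ℝ := fun i =>
      if i = 0 then (C.den * X' - C.a) / ((C.b : ℝ) - C.den * X')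
      else if i = 1 then C.mu2 ^ 2 * V / (C.mu1 ^ 2 * U)
      else if i = 2 then C.nu ^ 2 * W / (C.mu1 ^ 2 * U) else 0
    have r0 : 0 ≤ ρ 0 := by
      rw [lo, div_le_iff₀ hden] at hxl
      exact div_nonneg (by linarith) hdx.le
    have r1 : 0 ≤ ρ 1 := by simp only [ρ]; simp; positivity
    have r2 : 0 ≤ ρ 2 := by simp only [ρ]; simp; positivity
    have hpos : ∀ i, 0 ≤ ρ i := fun i => by
      by_cases a : i = 0
      · subst a; exact r0
      by_cases b : i = 1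
      · subst b; exact r1
      by_cases c : i = 2
      · subst c; exact r2
      simp [ρ, a, b, c]
    have h4 : ∀ i, 4 ≤ i → ρ i = 0 := fun i hi => by
      simp only [ρ]; rw [if_neg (by omega), if_neg (by omega), if_neg (by omega)]
    have d1 : 0 < Ex.val ρ D1 := by
      change (0 : ℝ) < ((1 : ℤ) : ℝ) + ρ 0; push_cast; linarith
    have d2 : 0 < Ex.val ρ D2 := by
      change (0 : ℝ) < ((1 : ℤ) : ℝ) + ρ 1 + ρ 2; push_cast; linarith
    have p0 : (C.p.t.P0 : ℝ) ≠ 0 := by exact_mod_cast hP0.ne'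
    have p1 : (C.p.t.P1 : ℝ) ≠ 0 := by exact_mod_cast hP1.ne'
    have p2 : (C.p.P2 : ℝ) ≠ 0 := by exact_mod_cast hP2.ne'
    have q0 : (C.p.t.Q0 : ℝ) ≠ 0 := by exact_mod_cast (show C.p.t.Q0 ≠ 0 by omega)
    have q1 : (C.p.t.Q1 : ℝ) ≠ 0 := by exact_mod_cast (show C.p.t.Q1 ≠ 0 by omega)
    have q2 : (C.p.Q2 : ℝ) ≠ 0 := by exact_mod_cast (show C.p.Q2 ≠ 0 by omega)
    have hmU : C.mu1 ^ 2 * U ≠ 0 := by positivity
    have hsum : (1 : ℝ) + C.mu2 ^ 2 * V / (C.mu1 ^ 2 * U) + C.nu ^ 2 * W / (C.mu1 ^ 2 * U)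
        = 1 / (C.mu1 ^ 2 * U) := by
      rw [eq_div_iff hmU, add_mul, add_mul, div_mul_cancel₀ _ hmU, div_mul_cancel₀ _ hmU]
      linarith
    have henv : ∀ i, Rep ρ D1 D2 (C.env i) (pt s i) := fun i => by
      rcases i with _ | _ | _ | _ | i
      · refine ⟨hF.hden, ?_⟩
        change ((C.a : ℤ) : ℝ) + ((C.b : ℤ) : ℝ) * ρ 0
          = X' * ((C.den : ℝ) * (((1 : ℤ) : ℝ) + ρ 0) ^ 1 * (((1 : ℤ) : ℝ) + ρ 1 + ρ 2) ^ 0)
        simp only [ρ, ↓reduceIte]
        push_cast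
        field_simp
        ring
      · refine ⟨Nat.mul_pos hF.hden (Nat.mul_pos hP0 hP0), ?_⟩
        change (((C.a : ℤ) : ℝ) + ((C.b : ℤ) : ℝ) * ρ 0)
            * (((C.p.t.Q0 * C.p.t.Q0 : ℕ) : ℤ) : ℝ)
          = X' * U * (((C.den * (C.p.t.P0 * C.p.t.P0) : ℕ) : ℝ) * (((1 : ℤ) : ℝ) + ρ 0) ^ 1
              * (((1 : ℤ) : ℝ) + ρ 1 + ρ 2) ^ 1)
        simp only [ρ, ↓reduceIte, one_ne_zero, pow_one, OfNat.ofNat_ne_zero, OfNat.ofNat_ne_one]
        push_cast
        rw [hsum, mu1, TPar.mu]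
        field_simp
        ring
      · refine ⟨Nat.mul_pos hF.hden (Nat.mul_pos hP1 hP1), ?_⟩
        change (((C.a : ℤ) : ℝ) + ((C.b : ℤ) : ℝ) * ρ 0)
            * ((((C.p.t.Q1 * C.p.t.Q1 : ℕ) : ℤ) : ℝ) * ρ 1)
          = X' * V * (((C.den * (C.p.t.P1 * C.p.t.P1) : ℕ) : ℝ) * (((1 : ℤ) : ℝ) + ρ 0) ^ 1
              * (((1 : ℤ) : ℝ) + ρ 1 + ρ 2) ^ 1)
        simp only [ρ, ↓reduceIte, one_ne_zero, pow_one, OfNat.ofNat_ne_zero, OfNat.ofNat_ne_one]
        push_cast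
        rw [hsum, mu2, TPar.nu]
        field_simp
        ring
      · refine ⟨Nat.mul_pos hF.hden (Nat.mul_pos hP2 hP2), ?_⟩
        change (((C.a : ℤ) : ℝ) + ((C.b : ℤ) : ℝ) * ρ 0)
            * ((((C.p.Q2 * C.p.Q2 : ℕ) : ℤ) : ℝ) * ρ 2)
          = X' * W * (((C.den * (C.p.P2 * C.p.P2) : ℕ) : ℝ) * (((1 : ℤ) : ℝ) + ρ 0) ^ 1
              * (((1 : ℤ) : ℝ) + ρ 1 + ρ 2) ^ 1)
        simp only [ρ, ↓reduceIte, one_ne_zero, pow_one, OfNat.ofNat_ne_zero, OfNat.ofNat_ne_one]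
        push_cast
        rw [hsum, Cell3.nu, TPar3.nu]
        field_simp
        ring
      · refine ⟨Nat.one_pos, ?_⟩
        simp [Ex.val, env, pt]
    obtain ⟨hl, hval⟩ := comp_rep henv C.poly
    have hn : 0 ≤ Ex.val ρ (comp D1 D2 C.env C.poly).num
        * (Ex.val ρ (exPow D1 r) * Ex.val ρ (exPow D2 r)) := Ex.nonneg_of_goodR hp ρ hpos h4
    rw [hval, val_exPow, val_exPow] at hn
    have hlpos : (0 : ℝ) < ((comp D1 D2 C.env C.poly).l : ℝ) := by exact_mod_cast hl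
    exact nonneg_of_mul_nonneg_left (nonneg_of_mul_nonneg_left hn (by positivity)) (by positivity)
  have hc : Continuous fun s : ℝ => RE.ev (pt s) C.poly := by
    refine (RE.continuous_ev C.poly).comp (continuous_pi fun i => ?_)
    simp only [pt]
    split_ifs <;> fun_prop
  have h0' : pt 0 = fun i => if i = 0 then x else if i = 1 then x * u else if i = 2 then x * v
      else if i = 3 then x * w else 0 := by
    funext i; simp [pt]
  rw [← h0']
  refine ge_of_tendsto (x := 𝓝[>] (0 : ℝ)) ((hc.tendsto 0).mono_left nhdsWithin_le_nhds) ?_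
  filter_upwards [Ioo_mem_nhdsGT (show (0 : ℝ) < 1 by norm_num)] with s hs
  exact key s hs.1 hs.2

/-- The core of a cell. -/
lemma main_ineq (hF : Facts C) (hp : ∃ bits r, C.chkPoly bits r = true) {X M1 M2 b : ℝ}
    (hX0 : 0 < X) (hlo : C.lo ≤ X) (hhi : X ≤ C.hi) (hM1 : 0 ≤ M1) (hM2 : 0 ≤ M2) (hb : 0 ≤ b)
    (hX : C.mu1 ^ 2 * M1 + C.mu2 ^ 2 * M2 + C.nu ^ 2 * b = X)
    (hR : C.rhsR X M1 M2 b ≤ 1 + C.kap) :
    (1 + C.kap - C.rhsR X M1 M2 b) * Real.exp (M1 + M2 + b) ≤ C.hSum M1 M2 b := by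
  have key := poly_nonneg hF hp hlo hhi (u := M1 / X) (v := M2 / X) (w := b / X) (by positivity)
    (by positivity) (by positivity) (by field_simp; linarith)
  simp only [mul_div_cancel₀ _ hX0.ne'] at key
  set z : ℕ → ℝ := fun i => if i = 0 then X else if i = 1 then M1 else if i = 2 then M2
    else if i = 3 then b else 0 with hz
  rw [poly, RE.ev_add, RE.ev_mul, RE.ev_add, ev_hH, ev_ehE, ev_rhsE] at key
  simp only [RE.ev, Int.cast_neg, Int.cast_natCast, neg_div, hF.top, hz, ↓reduceIte, one_ne_zero,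
    OfNat.ofNat_ne_zero, OfNat.ofNat_ne_one, Nat.reduceEqDiff] at key
  have hg := hF.good
  simp only [TPar3.good, TPar.good, Bool.and_eq_true, decide_eq_true_eq] at hg
  obtain ⟨⟨⟨⟨-, h0⟩, -⟩, -⟩, -⟩ := hg
  have hQ0 : (0 : ℝ) < C.p.t.Q0 := by exact_mod_cast (show 0 < C.p.t.Q0 by omega)
  have hP0 : (0 : ℝ) < C.p.t.P0 := by
    have := mul_pos hF.h1 hQ0; rwa [mu1, TPar.mu, div_mul_cancel₀ _ hQ0.ne'] at this
  have hden : (0 : ℝ) < C.den := by exact_mod_cast hF.hden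
  set A : ℝ := (C.b : ℝ) * ((C.p.t.Q0 : ℝ) * C.p.t.Q0) with hA
  set B : ℝ := (C.den : ℝ) * ((C.p.t.P0 : ℝ) * C.p.t.P0) with hB
  have hB0 : 0 < B := by positivity
  have hn' : A < ((C.n + 2 : ℕ) : ℝ) * B := by
    rw [hA, hB]; exact_mod_cast hF.hn
  have hT : (M1 + (M2 + b)) * B ≤ A := by
    have h1 : C.mu1 ^ 2 * (M1 + (M2 + b)) ≤ C.hi := by
      have s12 : C.mu1 ^ 2 ≤ C.mu2 ^ 2 := pow_le_pow_left₀ hF.h1.le hF.h12.le 2
      have s23 : C.mu2 ^ 2 ≤ C.nu ^ 2 :=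
        pow_le_pow_left₀ (by linarith [hF.h1, hF.h12]) hF.h23.le 2
      have := mul_le_mul_of_nonneg_right s12 hM2
      have := mul_le_mul_of_nonneg_right (le_trans s12 s23) hb
      linarith
    rw [hi, le_div_iff₀ hden, mu1, TPar.mu, div_pow, div_mul_eq_mul_div, div_mul_eq_mul_div,
      div_le_iff₀ (by positivity)] at h1
    rw [hA, hB]; linarith
  have hl : C.lastR = ((C.n + 2 : ℕ) : ℝ) * B / (((C.n + 2 : ℕ) : ℝ) * B - A) := by
    simp only [lastR, lastC, RE.ev]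
    rw [Nat.cast_sub hF.hn.le, hA, hB]
    push_cast
    rfl
  have hlast : 0 < C.lastR := by
    rw [hl]; exact div_pos (by positivity) (by linarith)
  have c1 : 1 ≤ C.lastR * (1 - (M1 + (M2 + b)) / ((C.n + 2 : ℕ) : ℝ)) := by
    rw [hl, div_mul_eq_mul_div, le_div_iff₀ (by linarith), one_mul]
    have : ((C.n + 2 : ℕ) : ℝ) * B * (1 - (M1 + (M2 + b)) / ((C.n + 2 : ℕ) : ℝ))
        = ((C.n + 2 : ℕ) : ℝ) * B - (M1 + (M2 + b)) * B := by field_simp
    linarith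
  have h1 := mul_le_mul_of_nonneg_left
    (exp_le_trunc C.n (add_nonneg hM1 (add_nonneg hM2 hb)) hlast c1) (sub_nonneg.mpr hR)
  rw [add_assoc]
  linarith

/-- The Poisson inequality in a cell. -/
theorem cell3_poisson (hv : C.Valid) {X M1 M2 b u1 u2 Qs c d : ℝ} (hX0 : 0 < X) (hlo : C.lo ≤ X)
    (hhi : X ≤ C.hi) (hM1 : 0 ≤ M1) (hM2 : 0 ≤ M2) (hb : 0 ≤ b)
    (hX : C.mu1 ^ 2 * M1 + C.mu2 ^ 2 * M2 + C.nu ^ 2 * b = X) (hd : C.dR ≤ d)
    (hL : Lin3 d C.mu1 C.mu2 C.nu M1 M2 b u1 u2 Qs)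
    (hQ : Qs ≤ C.mu1 ^ 4 * M1 + C.mu2 ^ 4 * M2 + C.nu ^ 4 * b) (hc : cX X ≤ c) (hc1 : c ≤ 1)
    (hH : C.mh = 0 ∨ X + C.kap * d * Qs ≤ (C.fh : ℝ) / C.fd)
    (hl : C.ml = 0 ∨ (C.fl : ℝ) / C.fd ≤ X + C.kap * d * Qs) :
    poisSum3 C.kap C.mu1 C.mu2 C.nu M1 M2 b
      ≤ X + C.kap' * (c * (C.mu1 ^ 4 * M1 + C.mu2 ^ 4 * M2 + C.nu ^ 4 * b))
        + (C.kap * d - C.kap' * c) * Qs - X ^ 2 / 1000 := by
  have hF := C.facts hv.shape
  obtain ⟨lxs, lys, hx, hy, ht⟩ := hv.table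
  refine le_trans ?_ (rhs_le hF hhi hb hM2 hd hL hQ hc hc1 hH hl)
  show ∑' x : ℕ × ℕ × ℕ, pw3 M1 M2 b x * nodeG C.kap C.mu1 C.mu2 C.nu x.1 x.2.1 x.2.2 ≤ _
  have bd := nodeG_bounds hF.hk hF.h1.le (by linarith [hF.h12, hF.h23, hF.hnu])
    (show 0 ≤ C.mu2 by linarith [hF.h1, hF.h12]) (by linarith [hF.h23, hF.hnu])
    (show 0 ≤ C.nu by linarith [hF.h1, hF.h12, hF.h23]) hF.hnu
  have hp3 := pw3_sum M1 M2 b
  have hsum : Summable fun x : ℕ × ℕ × ℕ =>
      pw3 M1 M2 b x * nodeG C.kap C.mu1 C.mu2 C.nu x.1 x.2.1 x.2.2 :=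
    Summable.of_nonneg_of_le (fun x => mul_nonneg (pw3_nonneg hM1 hM2 hb x) (bd _ _ _).1)
      (fun x => mul_le_mul_of_nonneg_left (bd _ _ _).2 (pw3_nonneg hM1 hM2 hb x))
      (hp3.summable.mul_right (1 + C.kap))
  set J := (range C.tab.length).sup fun i => (C.tab.getD i []).length with hJ
  set L := (range C.tab.length).sup fun i => (range (C.tab.getD i []).length).sup
    fun j => ((C.tab.getD i []).getD j []).length with hLdef
  have hfin : HasSum (fun x : ℕ × ℕ × ℕ => pw3 M1 M2 b x * C.defV x.1 x.2.1 x.2.2)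
      (Real.exp (-(M1 + M2 + b)) * C.hSum M1 M2 b) := by
    have := hasSum_sum_of_ne_finset_zero (L := SummationFilter.unconditional _)
      (f := fun x : ℕ × ℕ × ℕ => pw3 M1 M2 b x * C.defV x.1 x.2.1 x.2.2)
      (s := range C.tab.length ×ˢ (range J ×ˢ range L)) fun x hx => by
      rw [defV_out ?_, mul_zero]
      simp only [mem_product, mem_range, not_and_or, not_lt] at hx
      by_contra hn
      simp only [not_or, not_le] at hn
      obtain ⟨a1, a2, a3⟩ := hn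
      have b2 : (C.tab.getD x.1 []).length ≤ J := Finset.le_sup
        (f := fun i => (C.tab.getD i []).length) (mem_range.mpr a1)
      have b3 : ((C.tab.getD x.1 []).getD x.2.1 []).length ≤ L := le_trans
        (Finset.le_sup (f := fun j => ((C.tab.getD x.1 []).getD j []).length) (mem_range.mpr a2))
        (Finset.le_sup (f := fun i => (range (C.tab.getD i []).length).sup
          fun j => ((C.tab.getD i []).getD j []).length) (mem_range.mpr a1))
      rcases hx with h | h | h <;> omega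
    refine hasSum_val this ?_
    rw [hSum, sum_product, mul_sum]
    refine sum_congr rfl fun i hi => ?_
    rw [sum_product, mul_sum]
    have b2 : (C.tab.getD i []).length ≤ J :=
      Finset.le_sup (f := fun i => (C.tab.getD i []).length) hi
    refine (sum_subset (range_subset_range.mpr b2) fun j _ hj => ?_).symm.trans ?_
    · refine sum_eq_zero fun l _ => ?_
      rw [defV_out (Or.inr (Or.inl (by simpa using hj))), mul_zero]
    refine sum_congr rfl fun j hj => ?_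
    have b3 : ((C.tab.getD i []).getD j []).length ≤ L := le_trans
      (Finset.le_sup (f := fun j => ((C.tab.getD i []).getD j []).length) hj)
      (Finset.le_sup (f := fun i => (range (C.tab.getD i []).length).sup
        fun j => ((C.tab.getD i []).getD j []).length) hi)
    rw [mul_sum]
    refine (sum_subset (range_subset_range.mpr b3) fun l _ hl => ?_).symm.trans ?_
    · rw [defV_out (Or.inr (Or.inr (by simpa using hl))), mul_zero]
    exact sum_congr rfl fun l _ => by simp only [pw3]; ring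
  have h1 := hasSum_le (fun x => by
    have := mul_le_mul_of_nonneg_left (nodeG_le_tab hF hx hy ht x.1 x.2.1 x.2.2)
      (pw3_nonneg hM1 hM2 hb x)
    rw [mul_sub] at this
    exact this) hsum.hasSum ((hp3.mul_right (1 + C.kap)).sub hfin)
  rw [one_mul] at h1
  have hH0 : 0 ≤ C.hSum M1 M2 b := sum_nonneg fun i _ => sum_nonneg fun j _ => sum_nonneg
    fun l _ => mul_nonneg (by positivity)
      (mul_nonneg (by positivity) (mul_nonneg (by positivity) (defV_nonneg hF i j l)))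
  rcases le_total (C.rhsR X M1 M2 b) (1 + C.kap) with hR | hR
  · have := main_ineq hF hv.poly hX0 hlo hhi hM1 hM2 hb hX hR
    have h2 := mul_le_mul_of_nonneg_left this (Real.exp_pos (-(M1 + M2 + b))).le
    have e : Real.exp (-(M1 + M2 + b)) * Real.exp (M1 + M2 + b) = 1 := by
      rw [← Real.exp_add, neg_add_cancel, Real.exp_zero]
    have h3 : Real.exp (-(M1 + M2 + b))
        * ((1 + C.kap - C.rhsR X M1 M2 b) * Real.exp (M1 + M2 + b))
        = 1 + C.kap - C.rhsR X M1 M2 b := by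
      linear_combination (1 + C.kap - C.rhsR X M1 M2 b) * e
    linarith
  · have := mul_nonneg (Real.exp_pos (-(M1 + M2 + b))).le hH0
    linarith

end Cell3

end Window

end Vale.Agent.P154
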