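import Vale.Agent.P154.Window.ScalarPoly

/-!
Data of the two-node cell near zero for at least 21/5 Poisson children.
-/

namespace Vale.Agent.P154

namespace Window

/-- The data of the cell. -/
def cellLow : Cell where
  t := ⟨7, 50, 61, 125, 1, 5, 8388608000000000000000000000⟩
  tab :=
    [[0, 2092844558400985497600000000, 5656487571695926416567773019, 7614958183537790860442446542,
  8650368600690331622106059836, 9253529853383601197459327248, 9595599399847161907416127167,
  9790431750229663277853718422, 9903956099078709401876103474, 9970250679885768438529088881],
    [165061230329856000000000000, 2308212052967835293629732740, 5766903704442243319564895675,
  7671862209084953210589237301, 8682901056391581807931535449, 9271565684163524629923943752,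
  9605726209881287542876327079, 9796271887862441649646714648, 9907332657081886939590908459],
    [330813003491654852197431139, 2515432864733013634283359119, 5873284920327716699437555345,
  7726818675557374147537177908, 8714292348032456298340996723, 9288981110936298459650989412,
  9615512394158399154807850828, 9801916412366767592297759961],
    [496791174677990905299721567, 2714604146940103389583259020, 5975698169180392463276478952,
  7779862027705794007962736049, 8744565915629173153216230699, 9305789875247079166352858802,
  9624965834225920609177219474],
    [662525366782955109724334989, 2906067115677123553878550353, 6074333382434334567959354860,
  7831087070812659660469632160, 8773780692172412216955704387, 9322025197722313854383208099],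
    [827568785676303291523471343, 3090225940890809251547003468, 6169405698806546240268257884,
  7880600251895649524744136176, 8802002417221514333709127620],
    [991530707089963215967378434, 3267490049277093632907605724, 6261128330277686684679412704,
  7928506269021114273970458466],
    [1154088043049251411694729831, 3438252855534207371251062951, 6349702692892012806488532978],
    [1314980055578737509895981358, 3602883763012287432884577798],
    [1473998870210763621377510039]]
  N := 9
  n := 9
  a := 0
  b := 30
  den := 1000
  d0 := 21
  dd := 5
  gam := true
  J := 0
  D11 := 0
  D12 := 0
  D22 := 0

end Window

end Vale.Agent.P154
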