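import Vale.Agent.P154.Window.Three.NodeDef
import Vale.Agent.P154.Window.ScalarTable
import Mathlib.Algebra.BigOperators.Ring.List
import Mathlib.Data.List.GetD

/-!
Rational upper bounds for the potential of several copies of three reference children.
-/

namespace Vale.Agent.P154

namespace Window

/-- The parameters of a table with three nodes: two nodes and the weight, and a third node. -/
structure TPar3 where
  /-- the first two nodes, the weight and the common denominator -/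
  t : TPar
  /-- numerator of the third node -/
  P2 : ℕ
  /-- denominator of the third node -/
  Q2 : ℕ

/-- The admissibility of the parameters. -/
def TPar3.good (p : TPar3) : Bool := p.t.good && decide (2 * p.P2 ≤ p.Q2 ∧ 0 < p.Q2)

/-- The third node. -/
noncomputable def TPar3.nu (p : TPar3) : ℝ := (p.P2 : ℝ) / p.Q2

/-- Scaled likelihood of the symbols of the third node. -/
def cellW (p : TPar3) (z g : ℕ) : ℕ := (p.Q2 - 2 * p.P2) ^ z * (p.Q2 + p.P2) ^ g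

/-- Term of three compositions. -/
def termC3 (p : TPar3) (e f g : Cnt × ℕ) : ℕ :=
  termV p.t (e.2 * f.2 * g.2)
    (cellU p.t e.1.1 f.1.1 (e.1.2.1 + e.1.2.2) (f.1.2.1 + f.1.2.2)
      * cellW p g.1.1 (g.1.2.1 + g.1.2.2))
    (cellU p.t e.1.2.1 f.1.2.1 (e.1.1 + e.1.2.2) (f.1.1 + f.1.2.2)
      * cellW p g.1.2.1 (g.1.1 + g.1.2.2))
    (cellU p.t e.1.2.2 f.1.2.2 (e.1.1 + e.1.2.1) (f.1.1 + f.1.2.1)
      * cellW p g.1.2.2 (g.1.1 + g.1.2.1))

/-- The sum over three lists. -/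
def sum3 (p : TPar3) (lx ly lz : List (Cnt × ℕ)) : ℕ :=
  (lx.map fun e => (ly.map fun f => (lz.map fun g => termC3 p e f g).sum).sum).sum

/-- The check of one entry. -/
def chkOne3 (p : TPar3) (i j l T : ℕ) (lx ly lz : List (Cnt × ℕ)) : Bool :=
  Nat.ble (sum3 p lx ly lz)
    (3 * T * ((3 * p.t.Q0) ^ i * (3 * p.t.Q1) ^ j * (3 * p.Q2) ^ l))

/-- The check of a table. -/
def chkTab3 (p : TPar3) (lxs lys : List (List (Cnt × ℕ))) (tab : List (List (List ℕ))) : Bool :=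
  (List.range tab.length).all fun i => Nat.blt i lxs.length
    && (List.range (tab.getD i []).length).all fun j => Nat.blt j lys.length
      && (List.range ((tab.getD i []).getD j []).length).all fun l => Nat.blt l lys.length
        && chkOne3 p i j l (((tab.getD i []).getD j []).getD l 0)
          (lxs.getD i []) (lys.getD j []) (lys.getD l [])

lemma nodeG_sum (κ μ1 μ2 ν : ℝ) (i j l : ℕ) :
    nodeG κ μ1 μ2 ν i j l
      = sumL (fun r => sumL (fun t => sumL (fun u => mPhi κ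
          (rowC ((1 - 2 * μ1) / 3) ((1 + μ1) / 3) r 0 * rowC ((1 - 2 * μ2) / 3) ((1 + μ2) / 3) t 0
            * rowC ((1 - 2 * ν) / 3) ((1 + ν) / 3) u 0)
          (rowC ((1 - 2 * μ1) / 3) ((1 + μ1) / 3) r 1 * rowC ((1 - 2 * μ2) / 3) ((1 + μ2) / 3) t 1
            * rowC ((1 - 2 * ν) / 3) ((1 + ν) / 3) u 1)
          (rowC ((1 - 2 * μ1) / 3) ((1 + μ1) / 3) r 2 * rowC ((1 - 2 * μ2) / 3) ((1 + μ2) / 3) t 2
            * rowC ((1 - 2 * ν) / 3) ((1 + ν) / 3) u 2))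
          (cntL id l)) (cntL id j)) (cntL srt i) / 3 := by
  rw [nodeG, mo, tsum_fintype, Fintype.sum_prod_type, Fintype.sum_prod_type]
  congr 1
  have s3 := sum_power_sym (mu := ν) (mPhi_sym κ) l
  have h1 := sum_power_cnt μ1 srt Sym3 (fun g hg r => rowC_srt _ _ hg r)
    (fun g hg => addC_sym μ1 hg) i
    (fun a b c => ∑ y, (fun a' b' c' => ∑ z, mPhi κ (a' * power (node ν) l z 0)
      (b' * power (node ν) l z 1) (c' * power (node ν) l z 2))
        (a * power (node μ2) j y 0) (b * power (node μ2) j y 1) (c * power (node μ2) j y 2))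
    (sum_power_sym s3 j)
  simp only [row] at h1
  simp only [row, pair]
  rw [h1]
  congr 1
  funext r
  have h2 := sum_power_cnt μ2 id (fun _ => True) (fun _ _ _ => rfl) (fun _ _ => trivial) j
    (fun a b c => ∑ z, mPhi κ
      (rowC ((1 - 2 * μ1) / 3) ((1 + μ1) / 3) r 0 * a * power (node ν) l z 0)
      (rowC ((1 - 2 * μ1) / 3) ((1 + μ1) / 3) r 1 * b * power (node ν) l z 1)
      (rowC ((1 - 2 * μ1) / 3) ((1 + μ1) / 3) r 2 * c * power (node ν) l z 2)) trivial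
  simp only [row] at h2
  rw [h2]
  congr 1
  funext t
  have h3 := sum_power_cnt ν id (fun _ => True) (fun _ _ _ => rfl) (fun _ _ => trivial) l
    (fun a b c => mPhi κ
      (rowC ((1 - 2 * μ1) / 3) ((1 + μ1) / 3) r 0 * rowC ((1 - 2 * μ2) / 3) ((1 + μ2) / 3) t 0 * a)
      (rowC ((1 - 2 * μ1) / 3) ((1 + μ1) / 3) r 1 * rowC ((1 - 2 * μ2) / 3) ((1 + μ2) / 3) t 1 * b)
      (rowC ((1 - 2 * μ1) / 3) ((1 + μ1) / 3) r 2 * rowC ((1 - 2 * μ2) / 3) ((1 + μ2) / 3) t 2 * c))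
    trivial
  simpa only [row] using h3

theorem chkOne3_sound {p : TPar3} (hp : p.good = true) {i j l T : ℕ}
    (h : chkOne3 p i j l T (cntL srt i) (cntL id j) (cntL id l) = true) :
    nodeG p.t.kap p.t.mu p.t.nu p.nu i j l ≤ (T : ℝ) / p.t.E := by
  simp only [TPar3.good, TPar.good, Bool.and_eq_true, decide_eq_true_eq] at hp
  obtain ⟨⟨⟨⟨hd, h0⟩, ⟨h1, h1'⟩⟩, hE⟩, h2, h2'⟩ := hp
  have hE' : (0 : ℝ) < p.t.E := by exact_mod_cast hE
  have hQ0 : (0 : ℝ) < p.t.Q0 := by exact_mod_cast (show 0 < p.t.Q0 by omega)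
  have hQ1 : (0 : ℝ) < p.t.Q1 := by exact_mod_cast h1'
  have hQ2 : (0 : ℝ) < p.Q2 := by exact_mod_cast h2'
  set c : ℝ := (3 * (p.t.Q0 : ℝ)) ^ i * (3 * (p.t.Q1 : ℝ)) ^ j * (3 * (p.Q2 : ℝ)) ^ l with hc
  have hcpos : 0 < c := by positivity
  have key : (p.t.E : ℝ) * c * (3 * nodeG p.t.kap p.t.mu p.t.nu p.nu i j l)
      ≤ (sum3 p (cntL srt i) (cntL id j) (cntL id l) : ℝ) := by
    rw [nodeG_sum, show ∀ s : ℝ, 3 * (s / 3) = s from fun s => by ring, mul_sumL, sum3]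
    rw [Nat.cast_list_sum, List.map_map]
    refine sumL_le _ fun e he => ?_
    simp only [Function.comp_apply]
    rw [mul_sumL, mul_sumL, Nat.cast_list_sum, List.map_map]
    refine sumL_le _ fun f hf => ?_
    simp only [Function.comp_apply]
    rw [mul_sumL, mul_sumL, mul_sumL, Nat.cast_list_sum, List.map_map]
    refine sumL_le _ fun g hg => ?_
    simp only [Function.comp_apply]
    have hk := deg_cntL cdeg_srt i e he
    have hj := deg_cntL (nf := id) (fun _ => rfl) j f hf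
    have hl := deg_cntL (nf := id) (fun _ => rfl) l g hg
    refine le_trans (le_of_eq ?_) (le_termV p.t _ _ _ _ hd)
    obtain ⟨⟨a, b, d⟩, m⟩ := e
    obtain ⟨⟨a', b', d'⟩, m'⟩ := f
    obtain ⟨⟨a'', b'', d''⟩, m''⟩ := g
    simp only [cdeg] at hk hj hl
    subst hk hj hl
    simp only [rowC, cellU, cellW, hc, TPar.mu, TPar.nu, TPar.kap, TPar3.nu,
      Matrix.cons_val_zero, Matrix.cons_val_one, Matrix.cons_val, Nat.cast_mul, Nat.cast_pow,
      Nat.cast_add, Nat.cast_ofNat, Nat.cast_sub (le_of_lt h0), Nat.cast_sub h1, Nat.cast_sub h2]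
    have e3 : ∀ (Q P : ℝ) (x y : ℕ), Q ≠ 0 →
        (3 * Q) ^ (x + y) * (((1 - 2 * (P / Q)) / 3) ^ x * ((1 + P / Q) / 3) ^ y)
          = (Q - 2 * P) ^ x * (Q + P) ^ y := fun Q P x y hQ => by
      rw [pow_add, mul_mul_mul_comm, ← mul_pow, ← mul_pow]
      congr 2 <;> field_simp
    rw [← e3 _ _ a (b + d) hQ0.ne', ← e3 _ _ b (a + d) hQ0.ne', ← e3 _ _ d (a + b) hQ0.ne',
      ← e3 _ _ a' (b' + d') hQ1.ne', ← e3 _ _ b' (a' + d') hQ1.ne',
      ← e3 _ _ d' (a' + b') hQ1.ne', ← e3 _ _ a'' (b'' + d'') hQ2.ne',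
      ← e3 _ _ b'' (a'' + d'') hQ2.ne', ← e3 _ _ d'' (a'' + b'') hQ2.ne',
      show b + (a + d) = a + (b + d) by omega, show d + (a + b) = a + (b + d) by omega,
      show b' + (a' + d') = a' + (b' + d') by omega, show d' + (a' + b') = a' + (b' + d') by omega,
      show b'' + (a'' + d'') = a'' + (b'' + d'') by omega,
      show d'' + (a'' + b'') = a'' + (b'' + d'') by omega]
    generalize (3 * (p.t.Q0 : ℝ)) ^ (a + (b + d)) = p0
    generalize (3 * (p.t.Q1 : ℝ)) ^ (a' + (b' + d')) = p1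
    generalize (3 * (p.Q2 : ℝ)) ^ (a'' + (b'' + d'')) = p2
    generalize ((1 - 2 * ((p.t.P0 : ℝ) / p.t.Q0)) / 3) ^ a
      * ((1 + (p.t.P0 : ℝ) / p.t.Q0) / 3) ^ (b + d) = u0
    generalize ((1 - 2 * ((p.t.P0 : ℝ) / p.t.Q0)) / 3) ^ b
      * ((1 + (p.t.P0 : ℝ) / p.t.Q0) / 3) ^ (a + d) = v0
    generalize ((1 - 2 * ((p.t.P0 : ℝ) / p.t.Q0)) / 3) ^ d
      * ((1 + (p.t.P0 : ℝ) / p.t.Q0) / 3) ^ (a + b) = w0
    generalize ((1 - 2 * ((p.t.P1 : ℝ) / p.t.Q1)) / 3) ^ a'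
      * ((1 + (p.t.P1 : ℝ) / p.t.Q1) / 3) ^ (b' + d') = u1
    generalize ((1 - 2 * ((p.t.P1 : ℝ) / p.t.Q1)) / 3) ^ b'
      * ((1 + (p.t.P1 : ℝ) / p.t.Q1) / 3) ^ (a' + d') = v1
    generalize ((1 - 2 * ((p.t.P1 : ℝ) / p.t.Q1)) / 3) ^ d'
      * ((1 + (p.t.P1 : ℝ) / p.t.Q1) / 3) ^ (a' + b') = w1
    generalize ((1 - 2 * ((p.P2 : ℝ) / p.Q2)) / 3) ^ a''
      * ((1 + (p.P2 : ℝ) / p.Q2) / 3) ^ (b'' + d'') = u2
    generalize ((1 - 2 * ((p.P2 : ℝ) / p.Q2)) / 3) ^ b''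
      * ((1 + (p.P2 : ℝ) / p.Q2) / 3) ^ (a'' + d'') = v2
    generalize ((1 - 2 * ((p.P2 : ℝ) / p.Q2)) / 3) ^ d''
      * ((1 + (p.P2 : ℝ) / p.Q2) / 3) ^ (a'' + b'') = w2
    rw [show p0 * u0 * (p1 * u1) * (p2 * u2) = p0 * p1 * p2 * (u0 * u1 * u2) by ring,
      show p0 * v0 * (p1 * v1) * (p2 * v2) = p0 * p1 * p2 * (v0 * v1 * v2) by ring,
      show p0 * w0 * (p1 * w1) * (p2 * w2) = p0 * p1 * p2 * (w0 * w1 * w2) by ring, mPhi_scale]
    ring
  have h' := (Nat.le_of_ble_eq_true h)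
  have h'' : (sum3 p (cntL srt i) (cntL id j) (cntL id l) : ℝ) ≤ 3 * (T : ℝ) * c := by
    rw [hc]; exact_mod_cast h'
  rw [le_div_iff₀ hE']
  nlinarith [mul_pos hcpos (show (0 : ℝ) < 3 by norm_num)]

theorem chkTab3_sound {p : TPar3} (hp : p.good = true) {lxs lys : List (List (Cnt × ℕ))}
    (hx : chainL srt (cntL srt 0) lxs = true) (hy : chainL id (cntL id 0) lys = true)
    {tab : List (List (List ℕ))} (h : chkTab3 p lxs lys tab = true) {i j l : ℕ}
    (hi : i < tab.length) (hj : j < (tab.getD i []).length)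
    (hl : l < ((tab.getD i []).getD j []).length) :
    nodeG p.t.kap p.t.mu p.t.nu p.nu i j l
      ≤ ((((tab.getD i []).getD j []).getD l 0 : ℕ) : ℝ) / p.t.E := by
  simp only [chkTab3, List.all_eq_true, List.mem_range, Bool.and_eq_true, Nat.blt_eq] at h
  obtain ⟨hi', h1⟩ := h i hi
  obtain ⟨hj', h2⟩ := h1 j hj
  obtain ⟨hl', h3⟩ := h2 l hl
  rw [List.getD_eq_getElem _ _ hi', List.getD_eq_getElem _ _ hj', List.getD_eq_getElem _ _ hl',
    chain_get lxs 0 hx i hi', chain_get lys 0 hy j hj', chain_get lys 0 hy l hl', Nat.zero_add,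
    Nat.zero_add, Nat.zero_add] at h3
  exact chkOne3_sound hp h3

end Window

end Vale.Agent.P154
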