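import Vale.Agent.P154.Window.Tent

/-!
Spreading the children onto an uninformative child and three reference lengths.
-/

namespace Vale.Agent.P154

namespace Window

variable {η : Type} {M : Lik η} {μ1 μ2 ν : ℝ}

/-- The weights of one child on the four reference lengths. -/
noncomputable def tentW3 (S T U R a : ℝ) : Fin 4 → ℝ :=
  if a ≤ S * R then ![R - a / S, a / S, 0, 0]
  else if a ≤ T * R then ![0, (T * R - a) / (T - S), (a - S * R) / (T - S), 0]
  else ![0, 0, (U * R - a) / (U - T), (a - T * R) / (U - T)]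

/-- The weight on the first length coming from the lowest interval. -/
noncomputable def tentLow1 (S R a : ℝ) : ℝ := if a ≤ S * R then a / S else 0

/-- The weight on the second length coming from the middle interval. -/
noncomputable def tentLow2 (S T R a : ℝ) : ℝ :=
  if a ≤ S * R then 0 else if a ≤ T * R then (a - S * R) / (T - S) else 0

/-- The spreading of a channel. -/
noncomputable def tent3 (μ1 μ2 ν : ℝ) (M : Lik η) (y : η) : Fin 4 → ℝ :=
  tentW3 (μ1 ^ 2) (μ2 ^ 2) (ν ^ 2) (row mS (M y)) (row mA (M y))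

lemma tentW3_spec {S T U R a : ℝ} (hS : 0 < S) (hST : S < T) (hTU : T < U) (ha : 0 ≤ a)
    (haU : a ≤ U * R) :
    (∀ i, 0 ≤ tentW3 S T U R a i) ∧ ∑ i, tentW3 S T U R a i = R
      ∧ ∑ i, tentW3 S T U R a i * ![0, S, T, U] i = a
      ∧ (0 ≤ tentLow1 S R a ∧ tentLow1 S R a ≤ tentW3 S T U R a 1)
      ∧ (0 ≤ tentLow2 S T R a ∧ tentLow2 S T R a ≤ tentW3 S T U R a 2) := by
  have hT : 0 < T - S := by linarith
  have hU : 0 < U - T := by linarith
  by_cases h : a ≤ S * R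
  · simp only [tentW3, tentLow1, tentLow2, if_pos h, Fin.sum_univ_four]
    refine ⟨?_, by simp, by simp; field_simp, ⟨div_nonneg ha hS.le, by simp⟩, le_rfl, by simp⟩
    intro i; fin_cases i <;> simp
    · rw [div_le_iff₀ hS]; linarith
    · exact div_nonneg ha hS.le
  by_cases h2 : a ≤ T * R
  · simp only [tentW3, tentLow1, tentLow2, if_neg h, if_pos h2, Fin.sum_univ_four]
    have h1 : 0 ≤ (T * R - a) / (T - S) := div_nonneg (by linarith) hT.le
    have h3 : 0 ≤ (a - S * R) / (T - S) := div_nonneg (by linarith [not_le.mp h]) hT.le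
    refine ⟨?_, ?_, ?_, ⟨le_rfl, by simpa using h1⟩, h3, by simp⟩
    · intro i; fin_cases i <;> simp
      · exact h1
      · exact h3
    · simp; field_simp; ring
    · simp; field_simp; ring
  · simp only [tentW3, tentLow1, tentLow2, if_neg h, if_neg h2, Fin.sum_univ_four]
    have h1 : 0 ≤ (U * R - a) / (U - T) := div_nonneg (by linarith) hU.le
    refine ⟨?_, ?_, ?_, ⟨le_rfl, by simp⟩, le_rfl, by simpa using h1⟩
    · intro i; fin_cases i <;> simp
      · exact h1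
      · exact div_nonneg (by linarith [not_le.mp h2]) hU.le
    · simp; field_simp; ring
    · simp; field_simp; ring

lemma tentW3_lin {S T U R a : ℝ} (hS : 0 < S) (hST : S < T) (hTU : T < U) (hR : 0 ≤ R)
    (h0 : R = 0 → a = 0) (η' θ ζ : ℝ) :
    2 * η' * S * tentLow1 S R a
        - η' ^ 2 * (R - (tentW3 S T U R a 1 - tentLow1 S R a) - tentW3 S T U R a 2
          - tentW3 S T U R a 3)
        + 2 * θ * (S * (tentW3 S T U R a 1 - tentLow1 S R a) + T * tentLow2 S T R a)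
        - θ ^ 2 * (tentW3 S T U R a 1 - tentLow1 S R a + tentLow2 S T R a)
        + 2 * ζ * (T * (tentW3 S T U R a 2 - tentLow2 S T R a) + U * tentW3 S T U R a 3)
        - ζ ^ 2 * (tentW3 S T U R a 2 - tentLow2 S T R a + tentW3 S T U R a 3)
      ≤ a ^ 2 / R := by
  rcases eq_or_lt_of_le hR with hz | hz
  · have h2 := h0 hz.symm
    subst h2
    simp [← hz, tentW3, tentLow1, tentLow2]
  have key : ∀ t : ℝ, 2 * t * a - t ^ 2 * R ≤ a ^ 2 / R := fun t => by
    have e : a ^ 2 / R - (2 * t * a - t ^ 2 * R) = (a - t * R) ^ 2 / R := by field_simp; ring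
    have : 0 ≤ (a - t * R) ^ 2 / R := by positivity
    linarith
  by_cases h : a ≤ S * R
  · simp only [tentW3, tentLow1, tentLow2, if_pos h]
    simp only [Matrix.cons_val_one, Matrix.cons_val, Matrix.cons_val_zero, sub_self, mul_zero,
      add_zero, sub_zero]
    have : 2 * η' * S * (a / S) = 2 * η' * a := by field_simp
    rw [this]; exact key η'
  have hT : T - S ≠ 0 := by linarith
  have hU : U - T ≠ 0 := by linarith
  by_cases h2 : a ≤ T * R
  · simp only [tentW3, tentLow1, tentLow2, if_neg h, if_pos h2]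
    simp only [Matrix.cons_val_one, Matrix.cons_val, Matrix.cons_val_zero, sub_self, mul_zero,
      add_zero, zero_sub, sub_zero]
    have e1 : S * ((T * R - a) / (T - S)) + T * ((a - S * R) / (T - S)) = a := by field_simp; ring
    have e2 : (T * R - a) / (T - S) + (a - S * R) / (T - S) = R := by field_simp; ring
    rw [e1, e2, show R - (T * R - a) / (T - S) - (a - S * R) / (T - S) = 0 by linarith]
    linarith [key θ]
  · simp only [tentW3, tentLow1, tentLow2, if_neg h, if_neg h2]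
    simp only [Matrix.cons_val_one, Matrix.cons_val, Matrix.cons_val_zero, sub_self, mul_zero,
      add_zero, zero_sub, sub_zero]
    have e1 : T * ((U * R - a) / (U - T)) + U * ((a - T * R) / (U - T)) = a := by field_simp; ring
    have e2 : (U * R - a) / (U - T) + (a - T * R) / (U - T) = R := by field_simp; ring
    rw [e1, e2, show R - (U * R - a) / (U - T) - (a - T * R) / (U - T) = 0 by linarith]
    linarith [key ζ]

theorem tent3_spread (hM : Ok M) (h1 : 0 < μ1) (h12 : μ1 < μ2) (h2ν : μ2 < ν) (hν : ν ≤ 1 / 2)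
    (hb : ∀ y, quad rc (M y 0) (M y 1) (M y 2) ≤ ν ^ 2 * tot (M y 0) (M y 1) (M y 2) ^ 2) :
    Spread M ![0, μ1, μ2, ν] (tent3 μ1 μ2 ν M) := by
  have hS : μ1 ^ 2 < μ2 ^ 2 := pow_lt_pow_left₀ h12 h1.le two_ne_zero
  have hT : μ2 ^ 2 < ν ^ 2 := pow_lt_pow_left₀ h2ν (by linarith) two_ne_zero
  have sp := fun y => tentW3_spec (pow_pos h1 2) hS hT (row_facts hM hb y).1
    (row_facts hM hb y).2.1
  refine ⟨fun y => ?_, fun i => ?_, fun y i => (sp y).1 i, fun y => (sp y).2.1, fun y => ?_⟩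
  · have h : ν ^ 2 ≤ 1 / 4 := by nlinarith
    have h' := mul_le_mul_of_nonneg_right h (sq_nonneg (tot (M y 0) (M y 1) (M y 2)))
    linarith [hb y]
  · fin_cases i <;> simp <;> constructor <;> linarith
  · refine Eq.trans ?_ (sp y).2.2.1
    refine Finset.sum_congr rfl fun i _ => ?_
    fin_cases i <;> simp [tent3]

/-- The weights seen by the scalar inequality. -/
theorem tent3_geometry (hM : Ok M) (h1 : 0 < μ1) (h12 : μ1 < μ2) (h2ν : μ2 < ν) (hν : ν ≤ 1 / 2)
    (hb : ∀ y, quad rc (M y 0) (M y 1) (M y 2) ≤ ν ^ 2 * tot (M y 0) (M y 1) (M y 2) ^ 2) :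
    ∃ u1 u2 : ℝ, 0 ≤ u1 ∧ u1 ≤ wt' (tent3 μ1 μ2 ν M) 1 ∧ 0 ≤ u2 ∧ u2 ≤ wt' (tent3 μ1 μ2 ν M) 2 ∧
      ∀ η' θ ζ : ℝ,
      2 * η' * μ1 ^ 2 * u1 - η' ^ 2 * (1 - (wt' (tent3 μ1 μ2 ν M) 1 - u1)
            - wt' (tent3 μ1 μ2 ν M) 2 - wt' (tent3 μ1 μ2 ν M) 3)
          + 2 * θ * (μ1 ^ 2 * (wt' (tent3 μ1 μ2 ν M) 1 - u1) + μ2 ^ 2 * u2)
          - θ ^ 2 * (wt' (tent3 μ1 μ2 ν M) 1 - u1 + u2)
          + 2 * ζ * (μ2 ^ 2 * (wt' (tent3 μ1 μ2 ν M) 2 - u2)
            + ν ^ 2 * wt' (tent3 μ1 μ2 ν M) 3)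
          - ζ ^ 2 * (wt' (tent3 μ1 μ2 ν M) 2 - u2 + wt' (tent3 μ1 μ2 ν M) 3)
        ≤ mo mQ M := by
  have hS : μ1 ^ 2 < μ2 ^ 2 := pow_lt_pow_left₀ h12 h1.le two_ne_zero
  have hT : μ2 ^ 2 < ν ^ 2 := pow_lt_pow_left₀ h2ν (by linarith) two_ne_zero
  have rf := row_facts hM hb
  have sp := fun y => tentW3_spec (pow_pos h1 2) hS hT (rf y).1 (rf y).2.1
  have hSp := tent3_spread hM h1 h12 h2ν hν hb
  set lo1 : η → ℝ := fun y => tentLow1 (μ1 ^ 2) (row mS (M y)) (row mA (M y))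
  set lo2 : η → ℝ := fun y => tentLow2 (μ1 ^ 2) (μ2 ^ 2) (row mS (M y)) (row mA (M y))
  have a0 : ∀ y, 0 ≤ lo1 y := fun y => (sp y).2.2.2.1.1
  have a1 : ∀ y, lo1 y ≤ tent3 μ1 μ2 ν M y 1 := fun y => (sp y).2.2.2.1.2
  have c0 : ∀ y, 0 ≤ lo2 y := fun y => (sp y).2.2.2.2.1
  have c1 : ∀ y, lo2 y ≤ tent3 μ1 μ2 ν M y 2 := fun y => (sp y).2.2.2.2.2
  have s1 : Summable lo1 := Summable.of_nonneg_of_le a0 a1 (hSp.summable hM 1)
  have s2 : Summable lo2 := Summable.of_nonneg_of_le c0 c1 (hSp.summable hM 2)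
  refine ⟨(∑' y, lo1 y) / 3, (∑' y, lo2 y) / 3, div_nonneg (tsum_nonneg a0) (by norm_num),
    div_le_div_of_nonneg_right (s1.tsum_le_tsum a1 (hSp.summable hM 1)) (by norm_num),
    div_nonneg (tsum_nonneg c0) (by norm_num),
    div_le_div_of_nonneg_right (s2.tsum_le_tsum c1 (hSp.summable hM 2)) (by norm_num),
    fun η' θ ζ => ?_⟩
  have g1 := (hSp.summable hM 1).hasSum
  have g2 := (hSp.summable hM 2).hasSum
  have g3 := (hSp.summable hM 3).hasSum
  have e1 := s1.hasSum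
  have e2 := s2.hasSum
  have lhs := (((((e1.mul_left (2 * η' * μ1 ^ 2)).sub
      ((((hM.hasSum_mass.sub (g1.sub e1)).sub g2).sub g3).mul_left (η' ^ 2))).add
      ((((g1.sub e1).mul_left (μ1 ^ 2)).add (e2.mul_left (μ2 ^ 2))).mul_left (2 * θ))).sub
      (((g1.sub e1).add e2).mul_left (θ ^ 2))).add
      ((((g2.sub e2).mul_left (μ2 ^ 2)).add (g3.mul_left (ν ^ 2))).mul_left (2 * ζ))).sub
      (((g2.sub e2).add g3).mul_left (ζ ^ 2))
  have key := hasSum_le (fun y => ?_) lhs (hM.summable_mom dom_mQ).hasSum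
  · simp only [wt', mo] at key ⊢
    linarith
  · have := tentW3_lin (pow_pos h1 2) hS hT (rf y).2.2.1 (rf y).2.2.2.2 η' θ ζ
    rw [(rf y).2.2.2.1] at this
    exact this

end Window

end Vale.Agent.P154
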