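import Vale.Agent.P154.Window.Three.Expand
import Vale.Agent.P154.Window.Three.Tent

/-!
One level of the recursion with three reference lengths.
-/

namespace Vale.Agent.P154

namespace Window

variable {η : Type} {M : Lik η} {μ1 μ2 ν : ℝ}

lemma ok_Q3 (hM : Ok M) (h1 : 0 < μ1) (h12 : μ1 < μ2) (h2ν : μ2 < ν) (hν : ν ≤ 1 / 2)
    (hb : ∀ y, quad rc (M y 0) (M y 1) (M y 2) ≤ ν ^ 2 * tot (M y 0) (M y 1) (M y 2) ^ 2) :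
    Ok (mixNode (wt' (tent3 μ1 μ2 ν M)) ![0, μ1, μ2, ν]) := by
  have hS := tent3_spread hM h1 h12 h2ν hν hb
  exact mixNode_ok hS.wt_nonneg (hS.wt_sum hM) hS.range

/-- The inequality of one level, before any scalar estimate. -/
theorem level_bound3 {p : ℕ → ℝ} {d κ κ' : ℝ} (hp : Law p d) (hd : 0 < d) (hM : Ok M)
    (hsw : Sw M) (h1 : 0 < μ1) (h12 : μ1 < μ2) (h2ν : μ2 < ν) (hν : ν ≤ 1 / 2)
    (hb : ∀ y, quad rc (M y 0) (M y 1) (M y 2) ≤ ν ^ 2 * tot (M y 0) (M y 1) (M y 2) ^ 2)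
    (hc : CC κ κ') (k0 : 0 ≤ κ) (k1 : κ ≤ 12 / 25) (k0' : 0 ≤ κ') {c : ℝ}
    (hgap : d * c ≤ ∑' N, p N * wgap (mixNode (wt' (tent3 μ1 μ2 ν M)) ![0, μ1, μ2, ν]) N) :
    ∃ M1 M2 b u1 u2 : ℝ, M1 = d * wt' (tent3 μ1 μ2 ν M) 1 ∧ M2 = d * wt' (tent3 μ1 μ2 ν M) 2 ∧
      b = d * wt' (tent3 μ1 μ2 ν M) 3 ∧
      0 ≤ b ∧ 0 ≤ u1 ∧ u1 ≤ M1 ∧ 0 ≤ u2 ∧ u2 ≤ M2 ∧ M1 + M2 + b ≤ d ∧
      μ1 ^ 2 * M1 + μ2 ^ 2 * M2 + ν ^ 2 * b = d * mo mA M ∧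
      Lin3 d μ1 μ2 ν M1 M2 b u1 u2 (d * mo mQ M) ∧
      d * mo mQ M ≤ μ1 ^ 4 * M1 + μ2 ^ 4 * M2 + ν ^ 4 * b ∧
      mo (mPhi κ) (mix p M)
        ≤ (∑' N, p N * mo (mPhi κ)
            (power (mixNode (wt' (tent3 μ1 μ2 ν M)) ![0, μ1, μ2, ν]) N))
          - κ' * (c * (μ1 ^ 4 * M1 + μ2 ^ 4 * M2 + ν ^ 4 * b - d * mo mQ M)) := by
  have hS := tent3_spread hM h1 h12 h2ν hν hb
  obtain ⟨v1, v2, p0, p1, q0, q1, ulin⟩ := tent3_geometry hM h1 h12 h2ν hν hb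
  have w3 := hS.wt_nonneg 3
  have wsum := hS.wt_sum hM
  rw [Fin.sum_univ_four] at wsum
  have w0 := hS.wt_nonneg 0
  have wlen := hS.wt_length hM
  simp [Fin.sum_univ_four] at wlen
  have hg := hS.gain_nonneg hM
  have hge : gain M ![0, μ1, μ2, ν] (tent3 μ1 μ2 ν M)
      = wt' (tent3 μ1 μ2 ν M) 1 * μ1 ^ 4 + wt' (tent3 μ1 μ2 ν M) 2 * μ2 ^ 4
        + wt' (tent3 μ1 μ2 ν M) 3 * ν ^ 4 - mo mQ M := by
    simp [gain, Fin.sum_univ_four]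
  rw [hge] at hg
  refine ⟨_, _, _, d * v1, d * v2, rfl, rfl, rfl, mul_nonneg hd.le w3, mul_nonneg hd.le p0,
    mul_le_mul_of_nonneg_left p1 hd.le, mul_nonneg hd.le q0,
    mul_le_mul_of_nonneg_left q1 hd.le, ?_, ?_, fun η' θ ζ => ?_, ?_, ?_⟩
  · calc d * wt' (tent3 μ1 μ2 ν M) 1 + d * wt' (tent3 μ1 μ2 ν M) 2
          + d * wt' (tent3 μ1 μ2 ν M) 3
        = d * (wt' (tent3 μ1 μ2 ν M) 1 + wt' (tent3 μ1 μ2 ν M) 2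
          + wt' (tent3 μ1 μ2 ν M) 3) := by ring
      _ ≤ d * 1 := mul_le_mul_of_nonneg_left (by linarith) hd.le
      _ = d := mul_one d
  · rw [← wlen]; ring
  · have := mul_le_mul_of_nonneg_left (ulin η' θ ζ) hd.le
    linarith
  · have := mul_le_mul_of_nonneg_left (show mo mQ M ≤ wt' (tent3 μ1 μ2 ν M) 1 * μ1 ^ 4
      + wt' (tent3 μ1 μ2 ν M) 2 * μ2 ^ 4 + wt' (tent3 μ1 μ2 ν M) 3 * ν ^ 4 by linarith) hd.le
    linarith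
  · refine le_trans (mix_replaced hp hM hsw hS hc k0 k1 k0') ?_
    rw [hge]
    have h2 := mul_le_mul_of_nonneg_left (mul_le_mul_of_nonneg_left hgap hg) k0'
    linarith

end Window

end Vale.Agent.P154
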